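import Crest.Agent.R53.Global

set_option autoImplicit false

namespace Crest.Agent.R53

open Set Filter Topology
open scoped Classical

/-- A partition of a type into finite blocks of geometrically growing size. -/
structure Blocks (α : Type) where
  J : ℕ → Finset α
  blk : α → ℕ
  mem_J : ∀ a j, a ∈ J j ↔ blk a = j
  pos : 0 < (J 0).card
  grow : ∀ j, 2 * (J j).card ≤ (J (j + 1)).card

namespace Blocks

variable {α : Type} (B : Blocks α)

/-- size of block `j` -/
def N (j : ℕ) : ℕ := (B.J j).card

/-- number of points of `X` in block `j` -/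
noncomputable def cnt (X : Set α) (j : ℕ) : ℕ := ((B.J j).filter (· ∈ X)).card

/-- density of `X` in block `j` -/
noncomputable def dens (X : Set α) (j : ℕ) : ℝ := (B.cnt X j : ℝ) / B.N j

/-- density tends to zero along `l` -/
def NullF (l : Filter ℕ) (X : Set α) : Prop := Tendsto (B.dens X) l (𝓝 0)

theorem pow_le_N (j : ℕ) : 2 ^ j ≤ B.N j := by
  induction j with
  | zero => exact B.pos
  | succ j ih =>
    have := B.grow j
    unfold N at *
    rw [pow_succ]; omega

theorem N_pos (j : ℕ) : 0 < B.N j := lt_of_lt_of_le (by positivity) (B.pow_le_N j)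

theorem N_pos' (j : ℕ) : (0 : ℝ) < B.N j := by exact_mod_cast B.N_pos j

theorem N_mono : Monotone B.N := monotone_nat_of_le_succ fun j => by
  have := B.grow j
  unfold N; omega

theorem tendsto_inv_N : Tendsto (fun j => (1 : ℝ) / B.N j) atTop (𝓝 0) := by
  refine tendsto_const_nhds.div_atTop (tendsto_natCast_atTop_atTop.comp ?_)
  exact tendsto_atTop_mono (fun j => (Nat.lt_two_pow_self).le.trans (B.pow_le_N j)) tendsto_id

theorem cnt_mono' {X Y : Set α} {j : ℕ} (h : ∀ x ∈ X, B.blk x = j → x ∈ Y) :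
    B.cnt X j ≤ B.cnt Y j := by
  refine Finset.card_le_card fun x hx => ?_
  rw [Finset.mem_filter] at hx ⊢
  exact ⟨hx.1, h x hx.2 ((B.mem_J _ _).1 hx.1)⟩

theorem cnt_mono {X Y : Set α} (h : X ⊆ Y) (j : ℕ) : B.cnt X j ≤ B.cnt Y j :=
  B.cnt_mono' fun _ hx _ => h hx

theorem cnt_union_le (X Y : Set α) (j : ℕ) : B.cnt (X ∪ Y) j ≤ B.cnt X j + B.cnt Y j := by
  refine le_trans (Finset.card_le_card fun x hx => ?_) (Finset.card_union_le _ _)
  simp only [Finset.mem_filter, Finset.mem_union, mem_union] at hx ⊢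
  tauto

theorem cnt_union {X Y : Set α} (h : Disjoint X Y) (j : ℕ) :
    B.cnt (X ∪ Y) j = B.cnt X j + B.cnt Y j := by
  unfold cnt
  rw [← Finset.card_union_of_disjoint]
  · congr 1; ext x
    simp only [Finset.mem_filter, Finset.mem_union, mem_union]; tauto
  · rw [Finset.disjoint_left]
    intro x hx hy
    exact h.le_bot ⟨(Finset.mem_filter.1 hx).2, (Finset.mem_filter.1 hy).2⟩

theorem cnt_le_N (X : Set α) (j : ℕ) : B.cnt X j ≤ B.N j := Finset.card_filter_le _ _

theorem cnt_univ (j : ℕ) : B.cnt univ j = B.N j := by simp [cnt, N]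

theorem cnt_single (x : α) (j : ℕ) : B.cnt {x} j = if B.blk x = j then 1 else 0 := by
  unfold cnt
  split_ifs with h
  · rw [Finset.card_eq_one]
    refine ⟨x, ?_⟩
    ext y
    simp only [Finset.mem_filter, mem_singleton_iff, Finset.mem_singleton, B.mem_J]
    constructor
    · exact fun h => h.2
    · rintro rfl; exact ⟨h, rfl⟩
  · rw [Finset.card_eq_zero, Finset.filter_eq_empty_iff]
    rintro y hy rfl
    exact h ((B.mem_J _ _).1 hy)

theorem cnt_insert {b : Set α} {x : α} (hx : x ∉ b) (j : ℕ) :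
    B.cnt (insert x b) j = B.cnt b j + if B.blk x = j then 1 else 0 := by
  rw [insert_eq, B.cnt_union (disjoint_singleton_left.2 hx), cnt_single, add_comm]

theorem dens_nonneg (X : Set α) (j : ℕ) : 0 ≤ B.dens X j := by unfold dens; positivity

theorem dens_mono {X Y : Set α} (h : X ⊆ Y) (j : ℕ) : B.dens X j ≤ B.dens Y j :=
  div_le_div_of_nonneg_right (by exact_mod_cast B.cnt_mono h j) (B.N_pos' j).le

theorem dens_union_le (X Y : Set α) (j : ℕ) : B.dens (X ∪ Y) j ≤ B.dens X j + B.dens Y j := by
  unfold dens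
  rw [← add_div]
  exact div_le_div_of_nonneg_right (by exact_mod_cast B.cnt_union_le X Y j) (B.N_pos' j).le

theorem isIdeal {l : Filter ℕ} (hl : l ≤ atTop) : IsIdeal (B.NullF l) where
  mono hXY hY := squeeze_zero (B.dens_nonneg _) (B.dens_mono hXY) hY
  union hX hY := squeeze_zero (B.dens_nonneg _) (B.dens_union_le _ _) (by simpa using hX.add hY)
  single x := squeeze_zero (B.dens_nonneg _) (fun j => by
    unfold dens
    refine div_le_div_of_nonneg_right ?_ (B.N_pos' j).le
    rw [cnt_single]; split_ifs <;> simp) (B.tendsto_inv_N.mono_left hl)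

theorem not_null_univ {l : Filter ℕ} [l.NeBot] : ¬ B.NullF l univ := by
  intro h
  have : B.dens univ = fun _ => 1 := by
    funext j; unfold dens; rw [cnt_univ, div_self (B.N_pos' j).ne']
  unfold NullF at h
  rw [this] at h
  exact one_ne_zero (tendsto_nhds_unique tendsto_const_nhds h)

theorem finite_le (m : ℕ) : {x | B.blk x ≤ m}.Finite := by
  refine ((Finset.range (m + 1)).biUnion B.J).finite_toSet.subset fun x hx => ?_
  simp only [Finset.coe_biUnion, mem_iUnion]
  exact ⟨B.blk x, by simpa [Nat.lt_succ_iff] using hx, (B.mem_J _ _).2 rfl⟩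

end Blocks

end Crest.Agent.R53
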