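import Mathlib

set_option autoImplicit false

namespace Crest.Agent.R53

open Set Cardinal

/-- The well-ordered index type of order type the initial ordinal of the continuum. -/
abbrev Idx : Type := (𝔠 : Cardinal.{0}).ord.ToType

theorem card_Iio_lt (i : Idx) : #(Iio i) < 𝔠 := by
  simpa using mk_Iio_lt i

theorem small_union {α : Type} {A B : Set α} (hA : #A < 𝔠) (hB : #B < 𝔠) :
    #(A ∪ B : Set α) < 𝔠 :=
  (mk_union_le A B).trans_lt (add_lt_of_lt aleph0_le_continuum hA hB)

theorem small_image {α β : Type} {A : Set α} (f : α → β) (hA : #A < 𝔠) : #(f '' A) < 𝔠 :=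
  mk_image_le.trans_lt hA

theorem card_Iic_lt (i : Idx) : #(Iic i) < 𝔠 := by
  rw [← Iio_union_right]
  refine small_union (card_Iio_lt i) ?_
  rw [mk_singleton]
  exact one_lt_aleph0.trans aleph0_lt_continuum

theorem small_biUnion {ι α : Type} {s : Set ι} (f : ι → Set α) (hs : #s < 𝔠)
    (hf : ∀ i, (f i).Countable) : #(⋃ i ∈ s, f i : Set α) < 𝔠 := by
  refine (mk_biUnion_le f s).trans_lt (mul_lt_of_lt aleph0_le_continuum hs ?_)
  refine lt_of_le_of_lt (ciSup_le' fun i => ?_) aleph0_lt_continuum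
  exact le_aleph0_iff_set_countable.2 (hf i)

theorem exists_enum (α : Type) [Nonempty α] (h : #α ≤ 𝔠) :
    ∃ f : Idx → α, Function.Surjective f := by
  have : #α ≤ #Idx := by simpa using h
  obtain ⟨e⟩ := (Cardinal.le_def _ _).1 this
  exact ⟨Function.invFun e, Function.invFun_surjective e.injective⟩

theorem card_set_le (α : Type) [Countable α] : #(Set α) ≤ 𝔠 := by
  rw [mk_set, ← two_power_aleph0]
  exact power_le_power_left two_ne_zero mk_le_aleph0

theorem exists_rec {ι α : Type} [LT ι] [WellFoundedLT ι] (P : ι → Set α → Set α → Prop)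
    (h : ∀ i S, ∃ T, P i S T) : ∃ G : ι → Set α, ∀ i, P i (⋃ j ∈ {j | j < i}, G j) (G i) := by
  choose F hF using h
  let G : ι → Set α := (wellFounded_lt (α := ι)).fix
    fun i g => F i (⋃ j, ⋃ hj : j < i, g j hj)
  refine ⟨G, fun i => ?_⟩
  have : G i = F i (⋃ j, ⋃ _ : j < i, G j) := by
    simp only [G]; rw [WellFounded.fix_eq]
  rw [this]
  exact hF i _

theorem exists_not_mem_small {C : Set (ℕ → Bool)} (hC : #C < 𝔠) (s : Bool) :
    ∃ x : ℕ → Bool, x 0 = s ∧ x ∉ C := by
  by_contra hcon
  push Not at hcon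
  let g : (ℕ → Bool) → C := fun y => ⟨fun n => Nat.casesOn n s y, hcon _ rfl⟩
  have hg : Function.Injective g := by
    intro y y' h
    funext n
    exact congrFun (congrArg Subtype.val h) (n + 1)
  have := mk_le_of_injective hg
  simp at this
  exact absurd hC (not_lt.2 this)

end Crest.Agent.R53
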