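import Crest.Agent.R53.Micro

set_option autoImplicit false

namespace Crest.Agent.R53

open Set Filter Topology
open scoped Classical

theorem tendsto_of_halving {s a : ℕ → ℝ} (hs0 : ∀ j, 0 ≤ s j) (ha : Tendsto a atTop (𝓝 0))
    (h : ∀ j, s (j + 1) ≤ s j / 2 + a (j + 1)) : Tendsto s atTop (𝓝 0) := by
  rw [Metric.tendsto_atTop]
  intro ε hε
  obtain ⟨j₀, hj₀⟩ := eventually_atTop.1 (ha.eventually (gt_mem_nhds (show (0:ℝ) < ε / 4 by
    positivity)))
  have key : ∀ m, s (j₀ + m) ≤ s j₀ * (1 / 2) ^ m + ε / 2 := by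
    intro m
    induction m with
    | zero => simp; positivity
    | succ m ih =>
      have h1 := h (j₀ + m)
      have h2 := hj₀ (j₀ + m + 1) (by omega)
      rw [← add_assoc, pow_succ]
      linarith
  have h3 : Tendsto (fun m : ℕ => s j₀ * (1 / 2 : ℝ) ^ m) atTop (𝓝 0) := by
    simpa using (tendsto_pow_atTop_nhds_zero_of_lt_one (r := (1 / 2 : ℝ)) (by norm_num)
      (by norm_num)).const_mul (s j₀)
  obtain ⟨m₀, hm₀⟩ := eventually_atTop.1 (h3.eventually (gt_mem_nhds (show (0:ℝ) < ε / 2 by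
    positivity)))
  refine ⟨j₀ + m₀, fun n hn => ?_⟩
  obtain ⟨m, rfl⟩ : ∃ m, n = j₀ + m := ⟨n - j₀, by omega⟩
  rw [Real.dist_eq, sub_zero, abs_of_nonneg (hs0 _)]
  have := hm₀ m (by omega)
  linarith [key m]

theorem exists_envelope {u : ℕ → ℝ} (hu0 : ∀ j, 0 ≤ u j) (hu : Tendsto u atTop (𝓝 0)) :
    ∃ e : ℕ → ℝ, Tendsto e atTop (𝓝 0) ∧ ∀ n j, n ≤ j → u j ≤ e n := by
  have hb : BddAbove (range u) := hu.bddAbove_range
  have hb' : ∀ n, BddAbove (u '' Ici n) := fun n => hb.mono (image_subset_range _ _)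
  have hle : ∀ n j, n ≤ j → u j ≤ sSup (u '' Ici n) := fun n j h =>
    le_csSup (hb' n) (mem_image_of_mem _ h)
  refine ⟨fun n => sSup (u '' Ici n), ?_, hle⟩
  rw [Metric.tendsto_atTop]
  intro ε hε
  obtain ⟨j₀, hj₀⟩ := eventually_atTop.1 (hu.eventually (gt_mem_nhds (show (0:ℝ) < ε / 2 by
    positivity)))
  refine ⟨j₀, fun n hn => ?_⟩
  rw [Real.dist_eq, sub_zero, abs_of_nonneg ((hu0 n).trans (hle n n le_rfl))]
  refine lt_of_le_of_lt (csSup_le ⟨_, mem_image_of_mem _ self_mem_Ici⟩ ?_) (half_lt_self hε)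
  rintro _ ⟨j, hj, rfl⟩
  exact (hj₀ j (hn.trans hj)).le

namespace Blocks

variable {α : Type} (B : Blocks α) (β : Set α)

theorem env {b : Set α} (h1 : B.NullF atTop (b \ β)) (h2 : B.NullF atTop (β \ b)) :
    ∃ e : ℕ → ℝ, Tendsto e atTop (𝓝 0) ∧ ∀ n j, n ≤ j →
      |(B.g β b j : ℝ)| ≤ e n * B.N j ∧ |(B.C β b j : ℝ)| ≤ e n * B.N j := by
  have hsub : ∀ X Y : Set α, ∀ j, (B.cnt X j : ℝ) ≤ B.cnt Y j + B.cnt (X \ Y) j := by
    intro X Y j
    have hXY : X ⊆ Y ∪ X \ Y := fun x hx => by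
      by_cases h : x ∈ Y
      · exact Or.inl h
      · exact Or.inr ⟨hx, h⟩
    exact_mod_cast (B.cnt_mono hXY j).trans (B.cnt_union_le _ _ j)
  let a : ℕ → ℝ := fun j => |(B.g β b j : ℝ)| / B.N j
  have ha : Tendsto a atTop (𝓝 0) := by
    refine squeeze_zero (fun j => by have := B.N_pos' j; positivity) (fun j => ?_)
      (by simpa using h1.add h2)
    unfold dens
    rw [← add_div]
    refine div_le_div_of_nonneg_right ?_ (B.N_pos' j).le
    have e1 := hsub b β j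
    have e2 := hsub β b j
    have e3 : (0:ℝ) ≤ B.cnt (b \ β) j := by positivity
    have e4 : (0:ℝ) ≤ B.cnt (β \ b) j := by positivity
    unfold g
    push_cast
    rw [abs_le]; constructor <;> linarith
  let s : ℕ → ℝ := fun j => (∑ i ∈ Finset.range (j + 1), |(B.g β b i : ℝ)|) / B.N j
  have hs0 : ∀ j, 0 ≤ s j := fun j => by have := B.N_pos' j; positivity
  have hs : Tendsto s atTop (𝓝 0) := by
    refine tendsto_of_halving hs0 ha fun j => ?_
    simp only [s, a]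
    rw [Finset.sum_range_succ _ (j + 1), add_div, div_div]
    have h3 : (B.N j : ℝ) * 2 ≤ B.N (j + 1) := by
      have := B.grow j
      have h4 : B.N j * 2 ≤ B.N (j + 1) := by unfold N; omega
      exact_mod_cast h4
    have := B.N_pos' j
    gcongr
  obtain ⟨e, he, he'⟩ := exists_envelope hs0 hs
  refine ⟨e, he, fun n j hj => ?_⟩
  have h5 := he' n j hj
  simp only [s] at h5
  rw [div_le_iff₀ (B.N_pos' j)] at h5
  refine ⟨le_trans ?_ h5, le_trans ?_ h5⟩
  · exact Finset.single_le_sum (f := fun i => |(B.g β b i : ℝ)|) (fun _ _ => abs_nonneg _)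
      (Finset.self_mem_range_succ j)
  · unfold C
    push_cast
    exact Finset.abs_sum_le_sum_abs _ _

theorem pick (W : Set α) {k : ℕ → ℝ} (hk0 : ∀ j, 0 ≤ k j) (hk : Tendsto k atTop (𝓝 0)) :
    ∃ Z, Z ⊆ W ∧ B.NullF atTop Z ∧
      ∀ j, k j * B.N j ≤ B.cnt W j → k j * B.N j ≤ B.cnt Z j := by
  have : ∀ j, ∃ t, t ⊆ (B.J j).filter (· ∈ W) ∧ t.card = min ⌈k j * B.N j⌉₊ (B.cnt W j) :=
    fun j => Finset.exists_subset_card_eq (min_le_right _ _)
  choose t ht1 ht2 using this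
  have hcnt : ∀ j, B.cnt {x | x ∈ t (B.blk x)} j = min ⌈k j * B.N j⌉₊ (B.cnt W j) := by
    intro j
    rw [← ht2]
    unfold cnt
    congr 1
    ext x
    simp only [Finset.mem_filter, mem_ofPred_eq, B.mem_J]
    constructor
    · rintro ⟨rfl, h⟩; exact h
    · intro h
      have := (B.mem_J _ _).1 (Finset.mem_filter.1 (ht1 j h)).1
      exact ⟨this, by rwa [this]⟩
  refine ⟨{x | x ∈ t (B.blk x)}, fun x hx => (Finset.mem_filter.1 (ht1 _ hx)).2, ?_, ?_⟩
  · refine squeeze_zero (B.dens_nonneg _) (fun j => ?_) (by simpa using hk.add B.tendsto_inv_N)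
    unfold dens
    have hN := B.N_pos' j
    rw [hcnt, div_le_iff₀ hN, add_mul, inv_mul_cancel₀ hN.ne']
    have h1 : ((min ⌈k j * B.N j⌉₊ (B.cnt W j) : ℕ) : ℝ) ≤ ⌈k j * B.N j⌉₊ := by
      exact_mod_cast min_le_left _ _
    have h2 := Nat.ceil_lt_add_one (show 0 ≤ k j * B.N j by have := hk0 j; positivity)
    linarith
  · intro j hj
    rw [hcnt, min_eq_left (Nat.ceil_le.2 hj)]
    exact Nat.le_ceil _

theorem nonnull {W : Set α} {l : Filter ℕ} (h : ¬ B.NullF l W) :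
    ∃ ε : ℝ, 0 < ε ∧ ∃ᶠ j in l, ε * B.N j ≤ B.cnt W j := by
  by_contra hcon
  push Not at hcon
  refine h (Metric.tendsto_nhds.2 fun ε hε => ?_)
  filter_upwards [hcon ε hε] with j hj
  rw [Real.dist_eq, sub_zero, abs_of_nonneg (B.dens_nonneg _ _)]
  unfold dens
  rwa [div_lt_iff₀ (B.N_pos' j)]

theorem up (b W : Set α) (h1 : B.NullF atTop (b \ β)) (h2 : B.NullF atTop (β \ b))
    (hW : ¬ B.NullF atTop W) (hd : Disjoint W b) :
    ∃ Z, Z ⊆ W ∧ B.NullF atTop Z ∧ B.MS β (b ∪ Z) := by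
  obtain ⟨e, he, he'⟩ := B.env β h1 h2
  have he0 : ∀ n, 0 ≤ e n := fun n =>
    nonneg_of_mul_nonneg_left ((abs_nonneg _).trans (he' n n le_rfl).1) (B.N_pos' n)
  obtain ⟨ε, hε, hS⟩ := B.nonnull hW
  have hk : Tendsto (fun j => 2 * e j) atTop (𝓝 0) := by simpa using he.const_mul 2
  obtain ⟨Z, hZ1, hZ2, hZ3⟩ := B.pick W (fun j => by have := he0 j; positivity) hk
  refine ⟨Z, hZ1, hZ2, fun h => ?_⟩
  obtain ⟨j, hj1, hj2, hj3⟩ := (hS.and_eventually (h.and (hk.eventually (gt_mem_nhds hε)))).exists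
  have hN := B.N_pos' j
  have hZ := hZ3 j (le_trans (by gcongr) hj1)
  have hdis : Disjoint b Z := (hd.mono_left hZ1).symm
  have hg : ∀ i, B.g β (b ∪ Z) i = B.g β b i + B.cnt Z i := by
    intro i; unfold g; rw [B.cnt_union hdis]; push_cast; ring
  have hC : B.C β b j + B.cnt Z j ≤ B.C β (b ∪ Z) j := by
    unfold C
    simp only [hg, Finset.sum_add_distrib]
    gcongr
    exact Finset.single_le_sum (f := fun i => (B.cnt Z i : ℤ)) (fun _ _ => by positivity)
      (Finset.self_mem_range_succ j)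
  have hC' : (B.C β b j : ℝ) + B.cnt Z j ≤ B.C β (b ∪ Z) j := by exact_mod_cast hC
  have hC2 : e j * B.N j ≤ B.C β (b ∪ Z) j := by
    have := (abs_le.1 (he' j j le_rfl).2).1
    linarith
  have h0 : 0 ≤ e j * B.N j := by have := he0 j; positivity
  rcases hj2 with h | ⟨i, hi, h⟩
  · have : (B.C β (b ∪ Z) j : ℝ) + 1 ≤ 0 := by exact_mod_cast h
    linarith
  · rw [hg] at h
    have h' : ((B.C β (b ∪ Z) j : ℝ) + 1) * B.N i + B.N j * (B.g β b i + B.cnt Z i) ≤ 0 := by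
      exact_mod_cast h
    have h3 := (abs_le.1 (he' j i hi.le).1).1
    have h4 := B.N_pos' i
    have h5 : (0:ℝ) ≤ B.cnt Z i := by positivity
    nlinarith [mul_le_mul_of_nonneg_right hC2 h4.le, mul_le_mul_of_nonneg_left h3 hN.le,
      mul_nonneg hN.le h5]

theorem down (b W : Set α) (h1 : B.NullF atTop (b \ β)) (h2 : B.NullF atTop (β \ b))
    (hW : ¬ B.NullF atTop W) (hd : W ⊆ b) :
    ∃ Z, Z ⊆ W ∧ B.NullF atTop Z ∧ B.MI β (b \ Z) := by
  obtain ⟨e, he, he'⟩ := B.env β h1 h2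
  have he0 : ∀ n, 0 ≤ e n := fun n =>
    nonneg_of_mul_nonneg_left ((abs_nonneg _).trans (he' n n le_rfl).1) (B.N_pos' n)
  obtain ⟨ε, hε, hS⟩ := B.nonnull hW
  rw [frequently_atTop] at hS
  let S : ℕ → Prop := fun j => ε * B.N j ≤ B.cnt W j
  let p : ℕ → ℕ := fun j => Nat.findGreatest S (j - 1)
  have hp : Tendsto p atTop atTop := by
    refine tendsto_atTop_atTop.2 fun M => ?_
    obtain ⟨s, hs1, hs2⟩ := hS M
    exact ⟨s + 1, fun j hj => hs1.trans (Nat.le_findGreatest (by omega) hs2)⟩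
  have hk : Tendsto (fun j => 2 * e (p j)) atTop (𝓝 0) := by
    simpa using (he.comp hp).const_mul 2
  obtain ⟨Z, hZ1, hZ2, hZ3⟩ := B.pick W (fun j => by have := he0 (p j); positivity) hk
  refine ⟨Z, hZ1, hZ2, ?_⟩
  obtain ⟨n₀, hn₀⟩ := eventually_atTop.1 (hk.eventually (gt_mem_nhds hε))
  refine eventually_atTop.2 ⟨n₀, fun n hn => ?_⟩
  have hex : ∃ j, n < j ∧ S j := hS (n + 1)
  obtain ⟨hj1, hj2⟩ := Nat.find_spec hex
  set j := Nat.find hex with hj
  have hpj : p j ≤ n := by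
    by_contra hcon
    have h3 : S (p j) := Nat.findGreatest_of_ne_zero (n := j - 1) rfl (by omega)
    have h4 : p j ≤ j - 1 := Nat.findGreatest_le _
    exact Nat.find_min hex (show p j < j by omega) ⟨not_le.1 hcon, h3⟩
  have hN := B.N_pos' j
  have hZ := hZ3 j (le_trans (by have := hn₀ j (by omega); gcongr) hj2)
  refine Or.inr ⟨j, hj1, ?_⟩
  have hg : B.g β (b \ Z) j = B.g β b j - B.cnt Z j := by
    have := B.cnt_union (X := b \ Z) (Y := Z) disjoint_sdiff_left j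
    rw [sdiff_union_of_subset (hZ1.trans hd)] at this
    unfold g; rw [this]; push_cast; ring
  have hC : (B.C β (b \ Z) n : ℝ) ≤ B.C β b n := by
    exact_mod_cast B.C_mono' β (b' := b \ Z) (b := b) fun x hx _ => hx.1
  rw [hg]
  have h3 := (abs_le.1 (he' (p j) n hpj).2).2
  have h4 := (abs_le.1 (he' (p j) j (by omega)).1).2
  have h5 := B.N_pos' n
  have : ((B.C β (b \ Z) n : ℝ) + 0) * B.N j + B.N n * (B.g β b j - B.cnt Z j) ≤ 0 := by
    nlinarith [mul_le_mul_of_nonneg_right (hC.trans h3) hN.le,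
      mul_le_mul_of_nonneg_left h4 h5.le, mul_le_mul_of_nonneg_left hZ h5.le]
  exact_mod_cast this

theorem good : Good (B.NullF atTop) β (B.MI β) (B.MS β) where
  monoI := B.MI_mono β
  monoS := B.MS_mono β
  m1a := B.m1a β
  m1b := B.m1b β
  ivt a c h _ := B.ivt β a c h
  up := B.up β
  down := B.down β

end Blocks

end Crest.Agent.R53
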