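import Crest.Agent.R53.Data
import Crest.Agent.R53.Outweigh

set_option autoImplicit false

namespace Crest.Agent.R53

open Set Filter Topology
open scoped Classical

/-- two copies of a block structure -/
noncomputable def Blocks.two {α : Type} (B : Blocks α) : Blocks (Bool × α) where
  J j := Finset.univ ×ˢ B.J j
  blk p := B.blk p.2
  mem_J p j := by simp [B.mem_J]
  pos := by simp [B.pos]
  grow j := by
    have := B.grow j
    simp only [Finset.card_product, Finset.card_univ, Fintype.card_bool]; omega

theorem Blocks.two_dens {α : Type} (B : Blocks α) (X : Set (Bool × α)) (j : ℕ) :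
    B.two.dens X j = (B.dens (co false X) j + B.dens (co true X) j) / 2 := by
  have h1 : B.two.N j = 2 * B.N j := by simp [Blocks.N, Blocks.two]
  have h2 : B.two.cnt X j = B.cnt (co false X) j + B.cnt (co true X) j := by
    simp only [Blocks.cnt, Blocks.two, Finset.card_filter, Finset.sum_product,
      Fintype.sum_bool, co, mem_preimage]
    rw [add_comm]
  unfold Blocks.dens
  rw [h1, h2]
  have := B.N_pos' j
  push_cast
  field_simp

theorem Blocks.two_null {α : Type} (B : Blocks α) :
    B.two.NullF atTop = Lift (B.NullF atTop) := by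
  funext X
  refine propext ⟨fun h s => ?_, fun h => ?_⟩
  · refine squeeze_zero (B.dens_nonneg _) (fun j => ?_) (by simpa using h.const_mul 2)
    rw [B.two_dens]
    have h1 := B.dens_nonneg (co false X) j
    have h2 := B.dens_nonneg (co true X) j
    cases s <;> linarith
  · have := ((h false).add (h true)).div_const 2
    simp only [add_zero, zero_div] at this
    exact this.congr fun j => (B.two_dens X j).symm

/-- the ground set -/
abbrev Gr : Type := Σ j : ℕ, ((Fin j → Bool) → Bool)

/-- restriction of a branch -/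
def res (x : ℕ → Bool) (j : ℕ) : Fin j → Bool := fun i => x i

/-- the concrete Walsh system -/
noncomputable def walsh : Walsh Gr (ℕ → Bool) where
  J j := Finset.univ.map (Function.Embedding.sigmaMk j)
  blk a := a.1
  mem_J := by
    rintro ⟨i, w⟩ j
    simp only [Finset.mem_map, Finset.mem_univ, true_and, Function.Embedding.sigmaMk_apply]
    constructor
    · rintro ⟨w', h⟩
      exact (congrArg Sigma.fst h).symm
    · rintro rfl
      exact ⟨w, rfl⟩
  pos := by simp
  grow j := by
    simp only [Finset.card_map, Finset.card_univ, Fintype.card_fun, Fintype.card_bool,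
      Fintype.card_fin]
    rw [← pow_succ']
    refine Nat.pow_le_pow_right (by norm_num) ?_
    have := Nat.one_le_two_pow (n := j)
    rw [pow_succ]; omega
  Z x := {a | a.2 (res x a.1) = true}
  σ x a := ⟨a.1, Function.update a.2 (res x a.1) (!a.2 (res x a.1))⟩
  σ_inv x a := by
    obtain ⟨j, w⟩ := a
    simp
  σ_blk _ _ := rfl
  σ_self x a := by simp
  σ_other x y hxy := by
    obtain ⟨n, hn⟩ := Function.ne_iff.1 hxy
    filter_upwards [eventually_gt_atTop n] with j hj
    rintro ⟨i, w⟩ rfl
    have : res y i ≠ res x i := fun h => hn (congrFun h ⟨n, hj⟩)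
    simp [Function.update_of_ne this]

theorem exists_vertex : ∃ (V : Ultrafilter Gr) (r : Set Gr → WithTop Idx)
    (M : Matroid (Bool × Gr)), (∀ T T', T ⊆ T' → r T ≤ r T') ∧ (∀ T B, B ∈ V → r T ≤ r B) ∧
    M.E = univ ∧ M.dual = M ∧
    ∀ I, M.Indep I → co false I ∈ V → r (co true I) < r (co false I)ᶜ := by
  have : Nonempty Gr := ⟨⟨0, fun _ => true⟩⟩
  obtain ⟨D, hD⟩ := exists_macroData walsh
  obtain ⟨AA, h1, h2, h3, h4⟩ := D.macro_family
  obtain ⟨M, hE, hd, hI⟩ := global D.hN.lift AA h1 h2 h3 (fun β => by
    rw [hD, ← Blocks.two_null]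
    exact ⟨_, _, walsh.toBlocks.two.good β⟩)
  refine ⟨D.V, D.r, M, fun T T' h => D.r_sub h, D.r_big, hE, hd, fun I hIi hV => ?_⟩
  obtain ⟨β, hβ, h⟩ := hI I hIi
  by_contra hcon
  exact h4 β hβ (D.FS_null h ⟨hV, not_lt.1 hcon⟩)

end Crest.Agent.R53
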