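import Crest.Agent.R53.Global
import Crest.Agent.R53.Card

set_option autoImplicit false

namespace Crest.Agent.R53

open Set Cardinal

/-- An ideal on `E` lifted to `Bool × E`. -/
def Lift {E : Type} (N : Set E → Prop) (X : Set (Bool × E)) : Prop := ∀ s, N (co s X)

theorem IsIdeal.lift {E : Type} [Nonempty E] {N : Set E → Prop} (h : IsIdeal N) :
    IsIdeal (Lift N) where
  mono hXY hY s := h.mono (preimage_mono hXY) (hY s)
  union hX hY s := h.union (hX s) (hY s)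
  single x s := h.sub1 (h.single x.2) (by
    intro e he
    have : (s, e) = x := he
    rw [← this]; rfl)

/-- The data of the macro level. -/
structure MacroData (E ρ : Type) [LinearOrder ρ] where
  Null : Set E → Prop
  K : Set E → Prop
  V : Ultrafilter E
  r : Set E → ρ
  hN : IsIdeal Null
  hK : IsIdeal K
  hNK : ∀ T, Null T → K T
  hKV : ∀ T, K T → T ∉ V
  r_mono : ∀ T T', K (T \ T') → r T ≤ r T'
  r_big : ∀ T B, B ∈ V → r T ≤ r B
  hR : ∀ W ∈ V, ∀ T ∉ V, ∃ Y, Y ⊆ W ∧ Y ∉ V ∧ r T < r Y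
  hsplit : ∀ 𝒲 : Set (Set E), #𝒲 < 𝔠 →
    ∃ Z, K Zᶜ ∧ ∀ W ∈ 𝒲, ¬ Null W → ¬ Null (W ∩ Z) ∧ ¬ Null (W \ Z)

namespace MacroData

variable {E ρ : Type} [LinearOrder ρ] (D : MacroData E ρ)

/-- forced spanning -/
def FS (X : Set (Bool × E)) : Prop := co false X ∈ D.V ∧ D.r (co false X)ᶜ ≤ D.r (co true X)

theorem K_empty [Nonempty E] {T : Set E} (h : ∀ x, x ∉ T) : D.K T :=
  D.hK.sub1 (D.hK.single (Classical.arbitrary E)) fun x hx => absurd hx (h x)

theorem r_sub [Nonempty E] {T T' : Set E} (h : T ⊆ T') : D.r T ≤ D.r T' :=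
  D.r_mono _ _ (D.K_empty fun _ hx => hx.2 (h hx.1))

theorem FS_mono {X Y : Set (Bool × E)} (h : Lift D.K (X \ Y)) (hX : D.FS X) : D.FS Y := by
  refine ⟨?_, ?_⟩
  · have h1 : (co false (X \ Y))ᶜ ∈ D.V := Ultrafilter.compl_mem_iff_notMem.2 (D.hKV _ (h false))
    filter_upwards [h1, hX.1] with e he1 he2
    by_contra he3
    exact he1 ⟨he2, he3⟩
  · refine (D.r_mono _ _ ?_).trans (hX.2.trans (D.r_mono _ _ (h true)))
    rw [compl_diff_compl']
    exact h false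

theorem FS_sub [Nonempty E] {X Y : Set (Bool × E)} (h : X ⊆ Y) (hX : D.FS X) : D.FS Y :=
  D.FS_mono (fun _ => D.K_empty fun _ hx => hx.2 (h hx.1)) hX

theorem FS_null {X Y : Set (Bool × E)} (h : Lift D.Null (X \ Y)) (hX : D.FS X) : D.FS Y :=
  D.FS_mono (fun s => D.hNK _ (h s)) hX

theorem FS_compl {X : Set (Bool × E)} (hX : D.FS X) : ¬ D.FS Xᶜ := fun h =>
  Ultrafilter.compl_mem_iff_notMem.1 h.1 hX.1

theorem FS_of_null {X : Set (Bool × E)} (h : Lift D.Null X) : D.FS Xᶜ :=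
  ⟨Ultrafilter.compl_mem_iff_notMem.2 (D.hKV _ (D.hNK _ (h false))),
    D.r_big _ _ (Ultrafilter.compl_mem_iff_notMem.2 (D.hKV _ (D.hNK _ (h true))))⟩

theorem split (𝒲 : Set (Set (Bool × E))) (h : #𝒲 < 𝔠) :
    ∃ Z, Lift D.K Zᶜ ∧
      ∀ W ∈ 𝒲, ¬ Lift D.Null W → ¬ Lift D.Null (W ∩ Z) ∧ ¬ Lift D.Null (W \ Z) := by
  obtain ⟨Z, hZ, hZ'⟩ := D.hsplit (co false '' 𝒲 ∪ co true '' 𝒲)
    (small_union (small_image _ h) (small_image _ h))
  refine ⟨Prod.snd ⁻¹' Z, fun _ => hZ, fun W hW hn => ?_⟩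
  obtain ⟨s, hs⟩ := not_forall.1 hn
  have := hZ' (co s W) (by
    cases s
    · exact Or.inl (mem_image_of_mem _ hW)
    · exact Or.inr (mem_image_of_mem _ hW)) hs
  exact ⟨fun h => this.1 (h s), fun h => this.2 (h s)⟩

theorem exists_b0 [Nonempty E] {a c : Set (Bool × E)} (hac : a ⊆ c) (ha : ¬ D.FS a)
    (hc : ¬ D.FS cᶜ) : ∃ b, a ⊆ b ∧ b ⊆ c ∧ ¬ D.FS b ∧ ¬ D.FS bᶜ := by
  by_cases ha' : D.FS aᶜ
  swap
  · exact ⟨a, Subset.rfl, hac, ha, ha'⟩
  by_cases hc' : D.FS c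
  swap
  · exact ⟨c, hac, Subset.rfl, hc', hc⟩
  have hW : co false c \ co false a ∈ D.V := Filter.inter_mem hc'.1 ha'.1
  by_cases hB : co true a ∈ D.V
  · have hB1 : (co true c)ᶜ ∉ D.V := fun h =>
      Ultrafilter.compl_mem_iff_notMem.1 h (Filter.mem_of_superset hB (preimage_mono hac))
    obtain ⟨Y, hY1, hY2, hY3⟩ := D.hR _ hW _ hB1
    let b : Set (Bool × E) := {p | if p.1 then p ∈ c else p ∈ a ∨ p.2 ∈ Y}
    have hb0 : co false b = co false a ∪ Y := by ext e; simp [co, b]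
    have hb1 : co true b = co true c := by ext e; simp [co, b]
    refine ⟨b, ?_, ?_, ?_, ?_⟩
    · rintro ⟨s, e⟩ h
      cases s
      · simp [b, h]
      · simp [b, hac h]
    · rintro ⟨s, e⟩ h
      cases s
      · simp only [b, mem_ofPred_eq, Bool.false_eq_true, if_false] at h
        rcases h with h | h
        · exact hac h
        · exact (hY1 h).1
      · simpa [b] using h
    · rintro ⟨h, -⟩
      rw [hb0, Ultrafilter.union_mem_iff] at h
      rcases h with h | h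
      · exact Ultrafilter.compl_mem_iff_notMem.1 ha'.1 h
      · exact hY2 h
    · rintro ⟨-, h⟩
      have e1 : (co false bᶜ)ᶜ = co false a ∪ Y := by rw [← hb0]; exact compl_compl _
      have e2 : co true bᶜ = (co true c)ᶜ := by rw [← hb1]; rfl
      rw [e1, e2] at h
      exact absurd ((D.r_sub subset_union_right).trans h) (not_le.2 hY3)
  · obtain ⟨Y, hY1, hY2, hY3⟩ := D.hR _ hW _ hB
    let b : Set (Bool × E) := {p | if p.1 then p ∈ a else p ∈ c ∧ p.2 ∉ Y}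
    have hb0 : co false b = co false c \ Y := by ext e; simp [co, b]
    have hb1 : co true b = co true a := by ext e; simp [co, b]
    refine ⟨b, ?_, ?_, ?_, ?_⟩
    · rintro ⟨s, e⟩ h
      cases s
      · simp only [b, mem_ofPred_eq, Bool.false_eq_true, if_false]
        exact ⟨hac h, fun hy => (hY1 hy).2 h⟩
      · simp [b, h]
    · rintro ⟨s, e⟩ h
      cases s
      · simp only [b, mem_ofPred_eq, Bool.false_eq_true, if_false] at h
        exact h.1
      · exact hac (by simpa [b] using h)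
    · rintro ⟨-, h⟩
      rw [hb0, hb1] at h
      refine absurd ((D.r_sub ?_).trans h) (not_le.2 hY3)
      exact fun e he h' => h'.2 he
    · rintro ⟨h, -⟩
      refine Ultrafilter.compl_mem_iff_notMem.1 h ?_
      show co false b ∈ D.V
      rw [hb0]
      exact Filter.inter_mem hc'.1 (Ultrafilter.compl_mem_iff_notMem.2 hY2)

theorem step [Nonempty E] {a c : Set (Bool × E)} (hac : a ⊆ c) (ha : ¬ D.FS a)
    (hc : ¬ D.FS cᶜ) (S : Set (Set (Bool × E))) (hS : #S < 𝔠)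
    (hβ : ∀ β ∈ S, ¬ Lift D.Null (β \ a) ∧ ¬ Lift D.Null (c \ β)) :
    ∃ b, a ⊆ b ∧ b ⊆ c ∧ ¬ D.FS b ∧ ¬ D.FS bᶜ ∧
      ∀ β ∈ S, ¬ Lift D.Null (b \ β) ∧ ¬ Lift D.Null (β \ b) := by
  obtain ⟨b₀, h1, h2, h3, h4⟩ := D.exists_b0 hac ha hc
  have hL := D.hN.lift
  have hLK := D.hK.lift
  obtain ⟨Z, hZ, hZ'⟩ := D.split
    (((fun β => (c \ b₀) \ β) '' S ∪ (fun β => (b₀ \ a) \ β) '' S) ∪
      ((fun β => (c \ b₀) ∩ β) '' S ∪ (fun β => (b₀ \ a) ∩ β) '' S))
    (small_union (small_union (small_image _ hS) (small_image _ hS))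
      (small_union (small_image _ hS) (small_image _ hS)))
  refine ⟨(a ∪ ((b₀ \ a) ∩ Z)) ∪ ((c \ b₀) \ Z), fun x hx => Or.inl (Or.inl hx), ?_, ?_, ?_, ?_⟩
  · rintro x ((hx | hx) | hx)
    · exact hac hx
    · exact h2 hx.1.1
    · exact hx.1.1
  · refine fun h => h3 (D.FS_mono (hLK.sub1 hZ ?_) h)
    intro x
    have := @h1 x
    simp only [mem_sdiff, mem_union, mem_inter_iff, mem_compl_iff]; tauto
  · refine fun h => h4 (D.FS_mono (hLK.sub1 hZ ?_) h)
    intro x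
    simp only [mem_sdiff, mem_union, mem_inter_iff, mem_compl_iff]; tauto
  · intro β hβS
    obtain ⟨hβ1, hβ2⟩ := hβ β hβS
    have z1 := hZ' _ (Or.inl (Or.inl (mem_image_of_mem _ hβS)))
    have z2 := hZ' _ (Or.inl (Or.inr (mem_image_of_mem _ hβS)))
    have z3 := hZ' _ (Or.inr (Or.inl (mem_image_of_mem _ hβS)))
    have z4 := hZ' _ (Or.inr (Or.inr (mem_image_of_mem _ hβS)))
    constructor
    · intro h
      have n1 : Lift D.Null ((c \ b₀) \ β) := by
        by_contra hn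
        refine (z1 hn).2 (hL.sub1 h ?_)
        intro x
        simp only [mem_sdiff, mem_union, mem_inter_iff]; tauto
      have n2 : Lift D.Null ((b₀ \ a) \ β) := by
        by_contra hn
        refine (z2 hn).1 (hL.sub1 h ?_)
        intro x
        simp only [mem_sdiff, mem_union, mem_inter_iff]; tauto
      refine hβ2 (hL.sub2 h (hL.union n1 n2) ?_)
      intro x
      simp only [mem_sdiff, mem_union, mem_inter_iff]; tauto
    · intro h
      have n1 : Lift D.Null ((c \ b₀) ∩ β) := by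
        by_contra hn
        refine (z3 hn).1 (hL.sub1 h ?_)
        intro x
        have := @h1 x
        simp only [mem_sdiff, mem_union, mem_inter_iff]; tauto
      have n2 : Lift D.Null ((b₀ \ a) ∩ β) := by
        by_contra hn
        refine (z4 hn).2 (hL.sub1 h ?_)
        intro x
        simp only [mem_sdiff, mem_union, mem_inter_iff]; tauto
      refine hβ1 (hL.sub2 h (hL.union n1 n2) ?_)
      intro x
      simp only [mem_sdiff, mem_union, mem_inter_iff]; tauto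

theorem macro_family [Nonempty E] [Countable E] :
    ∃ AA : Set (Set (Bool × E)), (∀ β ∈ AA, βᶜ ∈ AA) ∧
      (∀ β ∈ AA, ∀ β' ∈ AA, Lift D.Null (β \ β') → β = β') ∧
      (∀ a c, a ⊆ c → ∃ β ∈ AA, Lift D.Null (β \ a) ∨ Lift D.Null (c \ β) ∨
        (Lift D.Null (a \ β) ∧ Lift D.Null (β \ c))) ∧
      ∀ β ∈ AA, ¬ D.FS β := by
  have hL := D.hN.lift
  have hnull0 : ∀ X : Set (Bool × E), (∀ x, x ∉ X) → Lift D.Null X := fun X hX =>
    hL.sub1 (hL.single (Classical.arbitrary _)) fun x hx => absurd hx (hX x)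
  obtain ⟨f, hf⟩ := exists_enum (Set (Bool × E) × Set (Bool × E)) (by
    rw [mk_prod, lift_id, ← continuum_mul_self]
    exact mul_le_mul' (card_set_le _) (card_set_le _))
  let cond : Idx → Set (Set (Bool × E)) → Prop := fun i S =>
    #S < 𝔠 ∧ (f i).1 ⊆ (f i).2 ∧ ¬ D.FS (f i).1 ∧ ¬ D.FS (f i).2ᶜ ∧
      ∀ β ∈ S, ¬ Lift D.Null (β \ (f i).1) ∧ ¬ Lift D.Null ((f i).2 \ β)
  obtain ⟨G, hG⟩ := exists_rec (ι := Idx) (fun i S T => (¬ cond i S ∧ T = ∅) ∨
    ∃ b, T = {b, bᶜ} ∧ (f i).1 ⊆ b ∧ b ⊆ (f i).2 ∧ ¬ D.FS b ∧ ¬ D.FS bᶜ ∧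
      ∀ β ∈ S, ¬ Lift D.Null (b \ β) ∧ ¬ Lift D.Null (β \ b)) (by
    intro i S
    by_cases h : cond i S
    · obtain ⟨h1, h2, h3, h4, h5⟩ := h
      obtain ⟨b, hb⟩ := D.step h2 h3 h4 S h1 h5
      exact ⟨_, Or.inr ⟨b, rfl, hb⟩⟩
    · exact ⟨∅, Or.inl ⟨h, rfl⟩⟩)
  have hcount : ∀ i, (G i).Countable := by
    intro i
    rcases hG i with h | ⟨b, h, -⟩
    · rw [h.2]; exact countable_empty
    · rw [h]; exact (toFinite _).countable
  have hcompl : ∀ i, ∀ β ∈ G i, βᶜ ∈ G i := by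
    intro i β hβ
    rcases hG i with h | ⟨b, h, -⟩
    · rw [h.2] at hβ; exact absurd hβ (notMem_empty _)
    · rw [h] at hβ ⊢
      rcases hβ with rfl | rfl <;> simp
  have hFS : ∀ i, ∀ β ∈ G i, ¬ D.FS β := by
    intro i β hβ
    rcases hG i with h | ⟨b, h, -, -, h1, h2, -⟩
    · rw [h.2] at hβ; exact absurd hβ (notMem_empty _)
    · rw [h] at hβ
      rcases hβ with rfl | rfl
      · exact h1
      · exact h2
  have hlt : ∀ i j, j < i → ∀ β ∈ G i, ∀ β' ∈ G j,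
      ¬ Lift D.Null (β \ β') ∧ ¬ Lift D.Null (β' \ β) := by
    intro i j hji β hβ β' hβ'
    rcases hG i with h | ⟨b, h, -, -, -, -, h1⟩
    · rw [h.2] at hβ; exact absurd hβ (notMem_empty _)
    · rw [h] at hβ
      rcases hβ with rfl | rfl
      · exact h1 β' (mem_biUnion (show j ∈ {j | j < i} from hji) hβ')
      · have := h1 β'ᶜ (mem_biUnion (show j ∈ {j | j < i} from hji) (hcompl j β' hβ'))
        rw [diff_compl_swap, diff_compl_swap']
        exact this.symm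
  have hM0 : ∀ a c, a ⊆ c → ¬ D.FS a → ¬ D.FS cᶜ → ∃ β ∈ ⋃ i, G i,
      Lift D.Null (β \ a) ∨ Lift D.Null (c \ β) ∨
        (Lift D.Null (a \ β) ∧ Lift D.Null (β \ c)) := by
    intro a c hac ha hc
    obtain ⟨i, hi⟩ := hf (a, c)
    rcases hG i with h | ⟨b, h, h1, h2, -⟩
    · by_contra hcon
      refine h.1 ⟨small_biUnion _ (card_Iio_lt i) hcount, ?_⟩
      rw [hi]
      refine ⟨hac, ha, hc, fun β hβ => ?_⟩
      obtain ⟨j, -, hj⟩ := mem_iUnion₂.1 hβ
      exact ⟨fun h => hcon ⟨β, mem_iUnion.2 ⟨j, hj⟩, Or.inl h⟩,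
        fun h => hcon ⟨β, mem_iUnion.2 ⟨j, hj⟩, Or.inr (Or.inl h)⟩⟩
    · rw [hi] at h1 h2
      refine ⟨b, mem_iUnion.2 ⟨i, by rw [h]; simp⟩, Or.inr (Or.inr ⟨?_, ?_⟩)⟩
      · exact hnull0 _ fun x hx => hx.2 (h1 hx.1)
      · exact hnull0 _ fun x hx => hx.2 (h2 hx.1)
  have hFS0 : ¬ D.FS ∅ := fun h => D.V.empty_notMem h.1
  refine ⟨⋃ i, G i, ?_, ?_, ?_, ?_⟩
  · intro β hβ
    obtain ⟨i, hi⟩ := mem_iUnion.1 hβ
    exact mem_iUnion.2 ⟨i, hcompl i β hi⟩
  · intro β hβ β' hβ' h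
    obtain ⟨i, hi⟩ := mem_iUnion.1 hβ
    obtain ⟨j, hj⟩ := mem_iUnion.1 hβ'
    rcases lt_trichotomy i j with hij | rfl | hij
    · exact absurd h (hlt j i hij β' hj β hi).2
    · have key : β' = βᶜ → False := by
        rintro rfl
        exact hFS i _ hj (D.FS_of_null (hL.sub1 h fun x hx => ⟨hx, fun h' => h' hx⟩))
      rcases hG i with h' | ⟨b, h', -⟩
      · rw [h'.2] at hi; exact absurd hi (notMem_empty _)
      · rw [h'] at hi hj
        rcases hi with rfl | rfl <;> rcases hj with hj | hj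
        · exact hj.symm
        · exact (key hj).elim
        · exact (key (by rw [compl_compl]; exact hj)).elim
        · exact hj.symm
    · exact absurd h (hlt i j hij β hi β' hj).1
  · intro a c hac
    by_cases ha : D.FS a
    · obtain ⟨β, hβ, h⟩ := hM0 ∅ a (empty_subset _) hFS0 (D.FS_compl ha)
      obtain ⟨i, hi⟩ := mem_iUnion.1 hβ
      refine ⟨β, hβ, Or.inl ?_⟩
      rcases h with h | h | h
      · exact hL.sub1 h fun x hx => ⟨hx.1, notMem_empty _⟩
      · exact absurd (D.FS_null h ha) (hFS i β hi)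
      · exact h.2
    by_cases hc : D.FS cᶜ
    · obtain ⟨β, hβ, h⟩ := hM0 c univ (subset_univ _) (fun h => D.FS_compl h hc)
        (by rw [compl_univ]; exact hFS0)
      obtain ⟨i, hi⟩ := mem_iUnion.1 hβ
      refine ⟨β, hβ, Or.inr (Or.inl ?_)⟩
      rcases h with h | h | h
      · refine absurd (D.FS_null ?_ hc) (hFS i _ (hcompl i β hi))
        rwa [compl_diff_compl']
      · exact hL.sub1 h fun x hx => ⟨trivial, hx.2⟩
      · exact h.1
    exact hM0 a c hac ha hc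
  · intro β hβ
    obtain ⟨i, hi⟩ := mem_iUnion.1 hβ
    exact hFS i β hi

end MacroData

end Crest.Agent.R53
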