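import Crest.Agent.R53.Walsh
import Crest.Agent.R53.Macro

set_option autoImplicit false

namespace Crest.Agent.R53

open Set Filter Topology Cardinal
open scoped Classical

namespace Walsh

variable {α ι : Type} (B : Walsh α ι)

/-- the ideal generated by the `U`-null sets and the complements of the `Z x`, `x ∈ Y` -/
def KY (U : Ultrafilter ℕ) (Y : Set ι) (T : Set α) : Prop :=
  ∃ F : Finset ι, (F : Set ι) ⊆ Y ∧ B.NullF U (T ∩ B.ZF F)

theorem KY_of_null {U : Ultrafilter ℕ} (hU : (U : Filter ℕ) ≤ atTop) (Y : Set ι) {T : Set α}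
    (h : B.NullF U T) : B.KY U Y T :=
  ⟨∅, by simp, (B.isIdeal hU).mono inter_subset_left h⟩

theorem isIdeal_KY {U : Ultrafilter ℕ} (hU : (U : Filter ℕ) ≤ atTop) (Y : Set ι) :
    IsIdeal (B.KY U Y) where
  mono := by
    rintro X X' h ⟨F, hF, h'⟩
    exact ⟨F, hF, (B.isIdeal hU).mono (inter_subset_inter_left _ h) h'⟩
  union := by
    rintro X X' ⟨F, hF, h⟩ ⟨F', hF', h'⟩
    refine ⟨F ∪ F', by simp [hF, hF'], (B.isIdeal hU).sub2 h h' ?_⟩
    rintro a ⟨ha | ha, ha'⟩
    · exact Or.inl ⟨ha, fun y hy => ha' y (Finset.mem_union_left _ hy)⟩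
    · exact Or.inr ⟨ha, fun y hy => ha' y (Finset.mem_union_right _ hy)⟩
  single x := B.KY_of_null hU Y ((B.isIdeal hU).single x)

theorem KY_compl [Nonempty α] {U : Ultrafilter ℕ} (hU : (U : Filter ℕ) ≤ atTop) {Y : Set ι}
    {x : ι} (hx : x ∈ Y) : B.KY U Y (B.Z x)ᶜ :=
  ⟨{x}, by simpa using hx, (B.isIdeal hU).sub1 ((B.isIdeal hU).single (Classical.arbitrary α))
    fun _ ha => absurd (ha.2 x (Finset.mem_singleton_self x)) ha.1⟩

theorem exists_V [Nonempty α] {U : Ultrafilter ℕ} (hU : (U : Filter ℕ) ≤ atTop) :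
    ∃ V : Ultrafilter α, ∀ T, B.KY U univ T → T ∉ V := by
  have hK := B.isIdeal_KY hU univ
  let 𝔽 : Filter α :=
    { sets := {X | B.KY U univ Xᶜ}
      univ_sets := hK.sub1 (hK.single (Classical.arbitrary α)) (by simp)
      sets_of_superset := fun h h' => hK.mono (compl_subset_compl.2 h') h
      inter_sets := fun h h' => by
        show B.KY U univ (_ ∩ _)ᶜ
        rw [compl_inter]; exact hK.union h h' }
  have : 𝔽.NeBot := by
    refine ⟨fun h => ?_⟩
    obtain ⟨F, -, hF⟩ : B.KY U univ (∅ : Set α)ᶜ := (empty_mem_iff_bot.2 h : ∅ ∈ 𝔽)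
    rw [compl_empty, univ_inter] at hF
    exact B.not_null_ZF hU F hF
  refine ⟨Ultrafilter.of 𝔽, fun T hT => Ultrafilter.compl_mem_iff_notMem.1 ?_⟩
  refine Ultrafilter.of_le 𝔽 ?_
  show B.KY U univ Tᶜᶜ
  rwa [compl_compl]

end Walsh

theorem exists_macroData {α : Type} [Nonempty α] [Countable α] (B : Walsh α (ℕ → Bool)) :
    ∃ D : MacroData α (WithTop Idx), D.Null = B.NullF atTop := by
  let U : Ultrafilter ℕ := Ultrafilter.of atTop
  have hU : (U : Filter ℕ) ≤ atTop := Ultrafilter.of_le _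
  obtain ⟨V, hV⟩ := B.exists_V hU
  let K := B.KY U {x | x 0 = false}
  have hK : IsIdeal K := B.isIdeal_KY hU _
  have hKV : ∀ T, K T → T ∉ V := fun T ⟨F, _, h⟩ => hV T ⟨F, subset_univ _, h⟩
  have : Nonempty {T : Set α // T ∉ V} := ⟨⟨∅, V.empty_notMem⟩⟩
  obtain ⟨y, hy⟩ := exists_enum {T : Set α // T ∉ V} ((mk_subtype_le _).trans (card_set_le α))
  let A : Set α → Set (WithTop Idx) := fun T => {ξ | ∀ i : Idx, ξ = i → K (T \ y i)}
  have hA : ∀ T, (A T).Nonempty := fun T => ⟨⊤, fun i hi => absurd hi WithTop.top_ne_coe⟩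
  let r : Set α → WithTop Idx := fun T => wellFounded_lt.min (A T) (hA T)
  have hr1 : ∀ T, r T ∈ A T := fun T => wellFounded_lt.min_mem _ _
  have hr2 : ∀ T, ∀ ξ ∈ A T, r T ≤ ξ := fun T ξ h => wellFounded_lt.min_le h
  have hdiff : ∀ W ∈ V, ∀ i, W \ y i ∈ V := fun W hW i =>
    inter_mem hW (Ultrafilter.compl_mem_iff_notMem.2 (y i).2)
  refine ⟨
    { Null := B.NullF atTop
      K := K
      V := V
      r := r
      hN := B.isIdeal le_rfl
      hK := hK
      hNK := fun T h => B.KY_of_null hU _ (h.mono_left hU)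
      hKV := hKV
      r_mono := fun T T' h => hr2 _ _ fun i hi => hK.trans h (hr1 T' i hi)
      r_big := ?_
      hR := ?_
      hsplit := ?_ }, rfl⟩
  · intro T W hW
    have : r W = ⊤ := by
      by_contra h
      obtain ⟨i, hi⟩ := WithTop.ne_top_iff_exists.1 h
      exact hKV _ (hr1 W i hi.symm) (hdiff W hW i)
    rw [this]; exact le_top
  · intro W hW T hT
    obtain ⟨i₀, hi₀⟩ := hy ⟨T, hT⟩
    have h1 : r T ≤ i₀ := hr2 _ _ fun i hi => by
      obtain rfl : i₀ = i := WithTop.coe_injective hi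
      rw [hi₀]
      exact hK.sub1 (hK.single (Classical.arbitrary α)) fun x hx => absurd hx.1 hx.2
    obtain ⟨x, hx0, hx⟩ := exists_not_mem_small
      (small_biUnion (fun i => B.exc U (W \ y i)) (card_Iic_lt i₀)
        fun i => B.countable_exc U hU _) true
    refine ⟨W \ B.Z x, sdiff_subset, fun h => ?_, lt_of_le_of_lt h1 ?_⟩
    · exact hV _ (B.KY_compl hU (mem_univ x)) (mem_of_superset h fun a ha => ha.2)
    · by_contra hcon
      rw [not_lt] at hcon
      obtain ⟨i, hi⟩ := WithTop.ne_top_iff_exists.1 (ne_top_of_le_ne_top WithTop.coe_ne_top hcon)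
      obtain ⟨F, hF, h⟩ := hr1 _ i hi.symm
      rw [← hi, WithTop.coe_le_coe] at hcon
      have hxF : x ∉ F := fun h => by
        have : x 0 = false := hF h
        rw [hx0] at this; exact Bool.noConfusion this
      have h2 := (B.half' hU (W := W \ y i) (x := x)
        (fun h => hx (mem_biUnion (show i ∈ Iic i₀ from hcon) h)) hxF).2
        ((B.isIdeal hU).sub1 h fun a ha => ⟨⟨⟨ha.1.1.1, ha.2⟩, ha.1.1.2⟩, ha.1.2⟩)
      exact hV _ ⟨F, subset_univ _, h2⟩ (hdiff W hW i)
  · intro 𝒲 h𝒲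
    have hex : ∀ W : Set α, ∃ U' : Ultrafilter ℕ, (U' : Filter ℕ) ≤ atTop ∧
        (¬ B.NullF atTop W → ¬ B.NullF U' W) := by
      intro W
      by_cases h : B.NullF atTop W
      · exact ⟨U, hU, fun h' => absurd h h'⟩
      · by_contra hcon
        push Not at hcon
        exact h ((tendsto_iff_ultrafilter _ _ _).2 fun U' hU' => (hcon U' hU').2)
    choose U' hU' hU'' using hex
    obtain ⟨x, hx0, hx⟩ := exists_not_mem_small
      (small_biUnion (fun W => B.exc (U' W) W) h𝒲 fun W => B.countable_exc _ (hU' W) _) false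
    refine ⟨B.Z x, B.KY_compl hU hx0, fun W hW hn => ?_⟩
    have h := B.half' (hU' W) (W := W) (x := x) (fun h => hx (mem_biUnion hW h))
      (Finset.notMem_empty x)
    have e : B.ZF ∅ = Set.univ := by ext a; simp [Walsh.ZF]
    rw [e, inter_univ] at h
    exact ⟨fun h' => hU'' W hn (h.1 (h'.mono_left (hU' W))),
      fun h' => hU'' W hn (h.2 (h'.mono_left (hU' W)))⟩

end Crest.Agent.R53
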