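import Mathlib

set_option autoImplicit false

namespace Crest.Agent.R53

open Set Matroid

/-- The coordinate `s` of a subset of `Bool × E`. -/
def co {E : Type} (s : Bool) (X : Set (Bool × E)) : Set E := Prod.mk s ⁻¹' X

theorem pc_indep {α : Type} {M : Matroid α} (hE : M.E = univ) (hd : M✶ = M) {P C S I : Set α}
    (hPC : P ∪ C = univ) (hdis : Disjoint P C) (hS : S ⊆ P)
    (hcl : (M.restrict P).closure S = P) (hIC : I ⊆ C) (hI : (M.contract Cᶜ).Indep I) :
    M.Indep ((P \ S) ∪ I) := by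
  have hP : P = M.E \ C := by
    rw [hE]; ext x
    constructor
    · intro hx; exact ⟨trivial, fun hc => hdis.le_bot ⟨hx, hc⟩⟩
    · intro hx
      have : x ∈ P ∪ C := hPC ▸ mem_univ x
      rcases this with h | h
      · exact h
      · exact absurd h hx.2
  have hsp : (M.restrict P).Spanning S := ⟨hcl, hS⟩
  have h1 := hsp.compl_coindep
  rw [coindep_def] at h1
  have h2 : M.restrict P = M.delete C := by rw [hP]; rfl
  rw [restrict_ground_eq, h2, dual_delete, hd] at h1
  obtain ⟨J, hJ, hIJ⟩ := hI.of_contract.subset_isBasis_of_subset hIC (by rw [hE]; exact subset_univ _)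
  rw [hJ.contract_indep_iff] at h1
  exact h1.1.subset (union_subset_union_right _ hIJ)

theorem selfDual_of {α : Type} {M : Matroid α} (hE : M.E = univ)
    (h : ∀ B, M.IsBase B → M.IsBase Bᶜ) : M✶ = M := by
  refine Matroid.ext_isBase rfl fun B _ => ?_
  rw [dual_isBase_iff', hE, ← compl_eq_univ_sdiff]
  exact ⟨fun hB => by simpa using h _ hB.1, fun hB => ⟨h _ hB, subset_univ _⟩⟩

theorem isBase_compl_of {α : Type} {M : Matroid α} (hE : M.E = univ) (hd : M✶ = M) {B : Set α}
    (hB : M.IsBase B) : M.IsBase Bᶜ := by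
  have := hB.compl_isBase_dual
  rwa [hd, hE, ← compl_eq_univ_sdiff] at this

/-- position on the double ray -/
def pos (t : Bool) (p : (Bool × ℕ) × Bool) : ℤ :=
  (if t then -1 else 1) *
    (if p.1.1 then 2 * (p.1.2 : ℤ) + (if p.2 then 1 else 0)
      else -(2 * (p.1.2 : ℤ) + 1 + (if p.2 then 1 else 0)))

theorem pos_bij (t : Bool) : Function.Bijective (pos t) := by
  constructor
  · rintro ⟨⟨a, k⟩, s⟩ ⟨⟨a', k'⟩, s'⟩ h
    cases t <;> cases a <;> cases a' <;> cases s <;> cases s' <;> simp [pos] at h ⊢ <;> omega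
  · intro z
    have key : ∀ z : ℤ, ∃ p, pos false p = z := by
      intro z
      rcases le_or_gt 0 z with hz | hz
      · rcases Int.emod_two_eq_zero_or_one z with h | h
        · exact ⟨((true, (z / 2).toNat), false), by simp [pos]; omega⟩
        · exact ⟨((true, (z / 2).toNat), true), by simp [pos]; omega⟩
      · rcases Int.emod_two_eq_zero_or_one z with h | h
        · exact ⟨((false, ((-z - 2) / 2).toNat), true), by simp [pos]; omega⟩
        · exact ⟨((false, ((-z - 1) / 2).toNat), false), by simp [pos]; omega⟩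
    cases t
    · exact key z
    · obtain ⟨p, hp⟩ := key (-z)
      refine ⟨p, ?_⟩
      simp only [pos, Bool.false_eq_true, if_false, one_mul, if_true] at hp ⊢
      rw [hp]; ring

noncomputable def rayEquiv (E : Type) (t : Bool) : (Bool × ℕ) × (Bool × E) ≃ ℤ × E :=
  (Equiv.prodAssoc _ _ _).symm.trans
    (Equiv.prodCongr (Equiv.ofBijective _ (pos_bij t)) (Equiv.refl E))

theorem rayEquiv_apply (E : Type) (t : Bool) (v : Bool × ℕ) (s : Bool) (e : E) :
    rayEquiv E t (v, (s, e)) = (pos t (v, s), e) := rfl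

theorem final {E ρ : Type} [Countable E] [Nonempty E] [LinearOrder ρ] [WellFoundedLT ρ]
    (V : Ultrafilter E) (r : Set E → ρ) (r_mono : ∀ T T', T ⊆ T' → r T ≤ r T')
    (r_big : ∀ T B, B ∈ V → r T ≤ r B)
    (M : Matroid (Bool × E)) (hE : M.E = univ) (hd : M✶ = M)
    (hI : ∀ I, M.Indep I → co false I ∈ V → r (co true I) < r (co false I)ᶜ) :
    ∃ M₀ M₁ : Matroid ℕ, M₀.E = Set.univ ∧ M₁.E = Set.univ ∧ M₀.dual = M₀ ∧ M₁.dual = M₁ ∧
      (∀ I₀ I₁ : Set ℕ, M₀.Indep I₀ → M₁.Indep I₁ → I₀ ∪ I₁ ≠ Set.univ) ∧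
      ¬ ∃ P C S₀ S₁ I₀ I₁ : Set ℕ, P ∪ C = Set.univ ∧ Disjoint P C ∧
          S₀ ⊆ P ∧ S₁ ⊆ P ∧ Disjoint S₀ S₁ ∧
          (M₀.restrict P).closure S₀ = P ∧ (M₁.restrict P).closure S₁ = P ∧
          I₀ ⊆ C ∧ I₁ ⊆ C ∧ (M₀.contract Cᶜ).Indep I₀ ∧ (M₁.contract Cᶜ).Indep I₁ ∧
          I₀ ∪ I₁ = C := by
  classical
  have : Infinite (ℤ × E) := inferInstance
  obtain ⟨D⟩ : Nonempty (Denumerable (ℤ × E)) := nonempty_denumerable _
  let ν : ℤ × E ≃ ℕ := Denumerable.eqv _
  let N : Bool → Matroid ℕ := fun t =>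
    (Matroid.sum' fun _ : Bool × ℕ => M).mapEquiv ((rayEquiv E t).trans ν)
  have hNE : ∀ t, (N t).E = univ := by
    intro t
    simp only [N, mapEquiv_ground_eq, sum'_ground_eq, hE]
    rw [eq_univ_iff_forall]
    intro n
    refine ⟨((rayEquiv E t).trans ν).symm n, ?_, by simp⟩
    generalize ((rayEquiv E t).trans ν).symm n = q
    exact mem_iUnion.2 ⟨q.1, q.2, mem_univ _, rfl⟩
  have hNd : ∀ t, (N t)✶ = N t := by
    intro t
    refine selfDual_of (hNE t) fun B hB => ?_
    simp only [N, mapEquiv_isBase_iff, sum'_isBase_iff] at hB ⊢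
    intro v
    have := isBase_compl_of hE hd (hB v)
    rwa [← preimage_compl, ← image_compl_eq ((rayEquiv E t).trans ν).symm.bijective] at this
  -- the part of a set in class `z`
  let cl : Set ℕ → ℤ → Set E := fun I z => {e | ν (z, e) ∈ I}
  have hstep : ∀ t I, (N t).Indep I → ∀ v, cl I (pos t (v, false)) ∈ V →
      r (cl I (pos t (v, true))) < r (cl I (pos t (v, false)))ᶜ := by
    intro t I hIn v hv
    simp only [N, mapEquiv_indep_iff, sum'_indep_iff] at hIn
    have h1 := hI _ (hIn v)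
    have h2 : ∀ s, co s (Prod.mk v ⁻¹' (((rayEquiv E t).trans ν).symm '' I)) =
        cl I (pos t (v, s)) := by
      intro s; ext e
      simp only [co, cl, mem_preimage, Equiv.image_symm_eq_preimage, Equiv.trans_apply,
        rayEquiv_apply, mem_ofPred_eq]
    rw [h2, h2] at h1
    exact h1 hv
  have hcov : ∀ I₀ I₁ : Set ℕ, (N false).Indep I₀ → (N true).Indep I₁ → I₀ ∪ I₁ ≠ univ := by
    intro I₀ I₁ h₀ h₁ hU
    let I : Bool → Set ℕ := fun t => if t then I₁ else I₀
    have hIi : ∀ t, (N t).Indep (I t) := by intro t; cases t <;> simpa [I]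
    have hcompl : ∀ t z, (cl (I t) z)ᶜ ⊆ cl (I (!t)) z := by
      intro t z e he
      have : ν (z, e) ∈ I₀ ∪ I₁ := hU ▸ mem_univ _
      cases t <;> simp [I, cl] at he this ⊢ <;> tauto
    -- one step of the descent
    have hnext : ∀ t v, cl (I t) (pos t (v, false)) ∈ V →
        ∃ v', cl (I (!t)) (pos (!t) (v', false)) ∈ V ∧
          r (cl (I (!t)) (pos (!t) (v', false)))ᶜ < r (cl (I t) (pos t (v, false)))ᶜ := by
      intro t v hv
      have h := hstep t _ (hIi t) v hv
      have hv' : ∃ v', pos (!t) (v', false) = pos t (v, true) := by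
        obtain ⟨a, k⟩ := v
        cases a
        · exact ⟨(true, k + 1), by cases t <;> simp [pos] <;> ring⟩
        · exact ⟨(false, k), by cases t <;> simp [pos]⟩
      obtain ⟨v', hv'⟩ := hv'
      refine ⟨v', ?_, ?_⟩
      · rw [hv']
        have hsm : cl (I t) (pos t (v, true)) ∉ V := fun hb => absurd (r_big _ _ hb) (not_le.2 h)
        exact Filter.mem_of_superset (Ultrafilter.compl_mem_iff_notMem.2 hsm) (hcompl t _)
      · rw [hv']
        refine lt_of_le_of_lt (r_mono _ _ ?_) h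
        have := hcompl (!t) (pos t (v, true))
        simpa using this
    have hnone : ∀ x : ρ, ∀ t v, cl (I t) (pos t (v, false)) ∈ V →
        r (cl (I t) (pos t (v, false)))ᶜ ≠ x := by
      intro x
      induction x using WellFoundedLT.induction with
      | ind x ih =>
        intro t v hv hx
        obtain ⟨v', h1, h2⟩ := hnext t v hv
        exact ih _ (hx ▸ h2) _ _ h1 rfl
    have hp : ∀ t, pos t ((true, 0), false) = 0 := by intro t; cases t <;> simp [pos]
    by_cases h0 : cl (I false) 0 ∈ V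
    · exact hnone _ false (true, 0) (by rwa [hp]) rfl
    · refine hnone _ true (true, 0) ?_ rfl
      rw [hp]
      exact Filter.mem_of_superset (Ultrafilter.compl_mem_iff_notMem.2 h0) (hcompl false 0)
  refine ⟨N false, N true, hNE _, hNE _, hNd _, hNd _, hcov, ?_⟩
  rintro ⟨P, C, S₀, S₁, I₀, I₁, hPC, hdis, hS₀, hS₁, hSS, hc₀, hc₁, hI₀, hI₁, hi₀, hi₁, hC⟩
  refine hcov _ _ (pc_indep (hNE _) (hNd _) hPC hdis hS₀ hc₀ hI₀ hi₀)
    (pc_indep (hNE _) (hNd _) hPC hdis hS₁ hc₁ hI₁ hi₁) ?_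
  rw [eq_univ_iff_forall]
  intro x
  have hx : x ∈ P ∪ C := hPC ▸ mem_univ x
  rcases hx with hx | hx
  · by_cases h0 : x ∈ S₀
    · exact Or.inr (Or.inl ⟨hx, fun h1 => hSS.le_bot ⟨h0, h1⟩⟩)
    · exact Or.inl (Or.inl ⟨hx, h0⟩)
  · rw [← hC] at hx
    rcases hx with hx | hx
    · exact Or.inl (Or.inr hx)
    · exact Or.inr (Or.inr hx)

end Crest.Agent.R53
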