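import Crest.Agent.R53.Final

set_option autoImplicit false

namespace Crest.Agent.R53

open Set Matroid

/-- An ideal of sets containing the points. -/
structure IsIdeal {O : Type} (Null : Set O → Prop) : Prop where
  mono : ∀ {X Y : Set O}, X ⊆ Y → Null Y → Null X
  union : ∀ {X Y : Set O}, Null X → Null Y → Null (X ∪ Y)
  single : ∀ x, Null {x}

theorem IsIdeal.sub2 {O : Type} {Null : Set O → Prop} (h : IsIdeal Null) {X Y Z : Set O}
    (hY : Null Y) (hZ : Null Z) (hX : ∀ x ∈ X, x ∈ Y ∨ x ∈ Z) : Null X :=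
  h.mono hX (h.union hY hZ)

theorem IsIdeal.sub1 {O : Type} {Null : Set O → Prop} (h : IsIdeal Null) {X Y : Set O}
    (hY : Null Y) (hX : ∀ x ∈ X, x ∈ Y) : Null X :=
  h.mono hX hY

theorem IsIdeal.trans {O : Type} {Null : Set O → Prop} (h : IsIdeal Null) {X Y Z : Set O}
    (hY : Null (X \ Y)) (hZ : Null (Y \ Z)) : Null (X \ Z) :=
  h.sub2 hY hZ (by intro x; simp only [mem_sdiff]; tauto)

/-- Micro structure on the class of `β`. -/
structure Good {O : Type} (Null : Set O → Prop) (β : Set O) (I S : Set O → Prop) : Prop where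
  monoI : ∀ a b, a ⊆ b → I b → I a
  monoS : ∀ a b, a ⊆ b → S a → S b
  m1a : ∀ b x, ¬ S b → I (insert x b)
  m1b : ∀ b x, x ∉ b → I (insert x b) → ¬ S b
  ivt : ∀ a c, Null (β \ a) → Null (c \ β) → a ⊆ c → I a → S c →
    ∃ b, a ⊆ b ∧ b ⊆ c ∧ I b ∧ S b
  up : ∀ b W, Null (b \ β) → Null (β \ b) → ¬ Null W → Disjoint W b →
    ∃ Z, Z ⊆ W ∧ Null Z ∧ S (b ∪ Z)
  down : ∀ b W, Null (b \ β) → Null (β \ b) → ¬ Null W → W ⊆ b →
    ∃ Z, Z ⊆ W ∧ Null Z ∧ I (b \ Z)

theorem compl_diff_compl' {O : Type} (a b : Set O) : aᶜ \ bᶜ = b \ a := by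
  ext x; simp only [mem_sdiff, mem_compl_iff]; tauto

theorem diff_compl_swap {O : Type} (a b : Set O) : aᶜ \ b = bᶜ \ a := by
  ext x; simp only [mem_sdiff, mem_compl_iff]; tauto

theorem diff_compl_swap' {O : Type} (a b : Set O) : a \ bᶜ = b \ aᶜ := by
  ext x; simp only [mem_sdiff, mem_compl_iff]; tauto

theorem Good.dual {O : Type} {Null : Set O → Prop} {β : Set O} {I S : Set O → Prop}
    (h : Good Null β I S) : Good Null βᶜ (fun X => S Xᶜ) (fun X => I Xᶜ) where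
  monoI a b hab hb := h.monoS _ _ (compl_subset_compl.2 hab) hb
  monoS a b hab ha := h.monoI _ _ (compl_subset_compl.2 hab) ha
  m1a b x hb := by
    by_contra hs
    refine hb (h.monoI _ _ ?_ (h.m1a _ x hs))
    intro y hy
    by_cases hyx : y = x
    · exact Or.inl hyx
    · right; simp only [mem_compl_iff, mem_insert_iff] at hy ⊢; tauto
  m1b b x hx hs hi := by
    refine h.m1b (insert x b)ᶜ x (by simp) (h.monoI _ _ ?_ hi) hs
    intro y hy
    simp only [mem_compl_iff, mem_insert_iff] at hy ⊢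
    rcases hy with rfl | hy
    · exact hx
    · tauto
  ivt a c h1 h2 hac ha hc := by
    obtain ⟨b, hb1, hb2, hb3, hb4⟩ := h.ivt cᶜ aᶜ (by rwa [diff_compl_swap'])
      (by rwa [diff_compl_swap]) (compl_subset_compl.2 hac) hc ha
    exact ⟨bᶜ, subset_compl_comm.1 hb2, compl_subset_comm.1 hb1, by simpa using hb4,
      by simpa using hb3⟩
  up b W h1 h2 hW hd := by
    obtain ⟨Z, hZ1, hZ2, hZ3⟩ := h.down bᶜ W (by rwa [diff_compl_swap])
      (by rwa [diff_compl_swap']) hW (subset_compl_iff_disjoint_right.2 hd)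
    refine ⟨Z, hZ1, hZ2, ?_⟩
    simpa [compl_union, sdiff_eq] using hZ3
  down b W h1 h2 hW hd := by
    obtain ⟨Z, hZ1, hZ2, hZ3⟩ := h.up bᶜ W (by rwa [diff_compl_swap])
      (by rwa [diff_compl_swap']) hW (disjoint_compl_right_iff_subset.2 hd)
    refine ⟨Z, hZ1, hZ2, ?_⟩
    simpa [compl_inter, sdiff_eq] using hZ3

/-- A self-dual uniform matroid from an independence predicate. -/
theorem matroid_of_ind {O : Type} [Nonempty O] (Ind : Set O → Prop)
    (hdown : ∀ a b, a ⊆ b → Ind b → Ind a)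
    (h1a : ∀ b x, ¬ Ind bᶜ → Ind (insert x b))
    (h1b : ∀ b x, x ∉ b → Ind (insert x b) → ¬ Ind bᶜ)
    (hivt : ∀ a c, a ⊆ c → Ind a → Ind cᶜ → ∃ b, a ⊆ b ∧ b ⊆ c ∧ Ind b ∧ Ind bᶜ) :
    ∃ M : Matroid O, M.E = univ ∧ M✶ = M ∧ ∀ X, M.Indep X → Ind X := by
  obtain ⟨x₀⟩ := ‹Nonempty O›
  have hemp : Ind ∅ := by
    by_cases h : Ind (∅ : Set O)ᶜ
    · exact hdown _ _ (empty_subset _) h
    · exact hdown _ _ (empty_subset _) (h1a _ x₀ h)
  have hmax' : ∀ b b', Ind bᶜ → Ind b' → b ⊆ b' → b' ⊆ b := by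
    intro b b' hb hb' hbb x hx
    by_contra hxb
    exact h1b b x hxb (hdown _ _ (insert_subset hx hbb) hb') hb
  have hmax : ∀ b, Maximal Ind b ↔ Ind b ∧ Ind bᶜ := by
    intro b
    constructor
    · intro hb
      refine ⟨hb.prop, ?_⟩
      by_contra hc
      have hall : ∀ x, x ∈ b := fun x =>
        hb.le_of_ge (h1a b x hc) (subset_insert _ _) (mem_insert _ _)
      have : bᶜ = ∅ := by ext x; simp [hall x]
      exact hc (this ▸ hemp)
    · rintro ⟨h1, h2⟩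
      exact ⟨h1, fun b' hb' hbb => hmax' b b' h2 hb' hbb⟩
  let IM : IndepMatroid O :=
    { E := univ
      Indep := Ind
      indep_empty := hemp
      indep_subset := fun I J hJ hIJ => hdown _ _ hIJ hJ
      indep_aug := by
        intro I B hI hnm hB
        have hc : ¬ Ind Iᶜ := fun hc => hnm ((hmax I).2 ⟨hI, hc⟩)
        by_contra hcon
        have hBI : B ⊆ I := by
          intro x hx
          by_contra hxI
          exact hcon ⟨x, ⟨hx, hxI⟩, h1a I x hc⟩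
        have : B = I := hBI.antisymm (hB.le_of_ge hI hBI)
        exact hnm (this ▸ hB)
      indep_maximal := by
        intro X _ I hI hIX
        by_cases hX : Ind Xᶜ
        · obtain ⟨b, h1, h2, h3, h4⟩ := hivt I X hIX hI hX
          exact ⟨b, h1, ⟨h3, h2⟩, fun b' hb' hbb => hmax' b b' h4 hb'.1 hbb⟩
        · exact ⟨X, hIX, ⟨hdown _ _ (subset_insert _ _) (h1a X x₀ hX), Subset.rfl⟩,
            fun b' hb' _ => hb'.2⟩
      subset_ground := fun I _ => subset_univ I }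
  refine ⟨IM.matroid, rfl, selfDual_of rfl fun B hB => ?_, fun X hX => hX⟩
  have hB' : Maximal Ind B := hB
  show Maximal Ind Bᶜ
  rw [hmax] at hB' ⊢
  exact ⟨hB'.2, by simpa using hB'.1⟩

theorem global {O : Type} [Nonempty O] {Null : Set O → Prop} (hN : IsIdeal Null)
    (AA : Set (Set O)) (hc : ∀ β ∈ AA, βᶜ ∈ AA)
    (hanti : ∀ β ∈ AA, ∀ β' ∈ AA, Null (β \ β') → β = β')
    (hM : ∀ a c, a ⊆ c →
      ∃ β ∈ AA, Null (β \ a) ∨ Null (c \ β) ∨ (Null (a \ β) ∧ Null (β \ c)))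
    (hG : ∀ β, ∃ I S, Good Null β I S) :
    ∃ M : Matroid O, M.E = univ ∧ M✶ = M ∧ ∀ X, M.Indep X → ∃ β ∈ AA, Null (X \ β) := by
  classical
  obtain ⟨p₀⟩ := ‹Nonempty O›
  choose I₀ S₀ h₀ using hG
  let II : Set O → Set O → Prop := fun β X => if p₀ ∈ β then I₀ β X else S₀ βᶜ Xᶜ
  have hGood : ∀ β, Good Null β (II β) (fun X => II βᶜ Xᶜ) := by
    intro β
    by_cases hp : p₀ ∈ β
    · have := h₀ β
      convert this using 2 <;> simp [II, hp]
    · have := (h₀ βᶜ).dual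
      rw [compl_compl] at this
      convert this using 2 <;> simp [II, hp]
  have hnull0 : ∀ X : Set O, (∀ x, x ∉ X) → Null X := fun X hX =>
    hN.sub1 (hN.single p₀) fun x hx => absurd hx (hX x)
  let Ind : Set O → Prop := fun X => ∃ β ∈ AA, Null (X \ β) ∧ (Null (β \ X) → II β X)
  have hSp : ∀ X, Ind Xᶜ ↔ ∃ β ∈ AA, Null (β \ X) ∧ (Null (X \ β) → II βᶜ Xᶜ) := by
    intro X
    constructor
    · rintro ⟨β, hβ, h1, h2⟩
      refine ⟨βᶜ, hc β hβ, by rwa [diff_compl_swap], fun h => ?_⟩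
      rw [compl_compl]
      exact h2 (by rwa [diff_compl_swap'])
    · rintro ⟨β, hβ, h1, h2⟩
      refine ⟨βᶜ, hc β hβ, by rwa [compl_diff_compl'], fun h => h2 ?_⟩
      rwa [compl_diff_compl'] at h
  suffices h : ∃ M : Matroid O, M.E = univ ∧ M✶ = M ∧ ∀ X, M.Indep X → Ind X by
    obtain ⟨M, h1, h2, h3⟩ := h
    exact ⟨M, h1, h2, fun X hX => let ⟨β, hβ, h, _⟩ := h3 X hX; ⟨β, hβ, h⟩⟩
  have : Nonempty O := ⟨p₀⟩
  refine matroid_of_ind Ind ?_ ?_ ?_ ?_
  · rintro a b hab ⟨β, hβ, h1, h2⟩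
    refine ⟨β, hβ, hN.mono (sdiff_subset_sdiff_left hab) h1, fun h => ?_⟩
    exact (hGood β).monoI _ _ hab (h2 (hN.mono (sdiff_subset_sdiff_right hab) h))
  · intro b x hb
    rw [hSp] at hb
    have hins : ∀ β, Null (b \ β) → Null (insert x b \ β) := fun β h =>
      hN.sub2 (hN.single x) h (by
        intro y; simp only [mem_sdiff, mem_insert_iff, mem_singleton_iff]; tauto)
    have hle : ∀ β ∈ AA, Null (b \ β) → Ind (insert x b) := by
      intro β hβ h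
      refine ⟨β, hβ, hins β h, fun h' => (hGood β).m1a b x fun hS => hb ⟨β, hβ, ?_, fun _ => hS⟩⟩
      exact hN.sub2 (hN.single x) h' (by
        intro y; simp only [mem_sdiff, mem_insert_iff, mem_singleton_iff]; tauto)
    obtain ⟨β, hβ, h | h | h⟩ := hM b b Subset.rfl
    · by_cases h' : Null (b \ β)
      · exact hle β hβ h'
      · exact absurd ⟨β, hβ, h, fun h'' => absurd h'' h'⟩ hb
    · exact hle β hβ h
    · exact hle β hβ h.1
  · rintro b x hx ⟨β, hβ, h1, h2⟩ hb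
    obtain ⟨β', hβ', h3, h4⟩ := (hSp b).1 hb
    have h5 : Null (b \ β) := hN.mono (sdiff_subset_sdiff_left (subset_insert _ _)) h1
    obtain rfl : β' = β := hanti _ hβ' _ hβ (hN.trans h3 h5)
    exact (hGood β').m1b b x hx
      (h2 (hN.mono (sdiff_subset_sdiff_right (subset_insert _ _)) h3)) (h4 h5)
  · rintro a c hac ⟨β₁, hβ₁, ha1, ha2⟩ hc'
    obtain ⟨β₂, hβ₂, hc1, hc2⟩ := (hSp c).1 hc'
    have hac0 : Null (a \ c) := hnull0 _ fun x hx => hx.2 (hac hx.1)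
    obtain ⟨β, hβ, haβ, hβc⟩ : ∃ β ∈ AA, Null (a \ β) ∧ Null (β \ c) := by
      obtain ⟨β, hβ, h | h | h⟩ := hM a c hac
      · obtain rfl : β = β₁ := hanti _ hβ _ hβ₁ (hN.trans h ha1)
        exact ⟨β, hβ, ha1, hN.trans h hac0⟩
      · obtain rfl : β₂ = β := hanti _ hβ₂ _ hβ (hN.trans hc1 h)
        exact ⟨β₂, hβ, hN.trans hac0 h, hc1⟩
      · exact ⟨β, hβ, h⟩
    have hG := hGood β
    -- lower end
    obtain ⟨a', haa', ha'c, ha'1, ha'2, ha'3⟩ :
        ∃ a', a ⊆ a' ∧ a' ⊆ c ∧ Null (a' \ β) ∧ Null (β \ a') ∧ II β a' := by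
      by_cases h : Null (β \ a)
      · obtain rfl : β = β₁ := hanti _ hβ _ hβ₁ (hN.trans h ha1)
        exact ⟨a, Subset.rfl, hac, haβ, h, ha2 h⟩
      · have hb1 : Null (((β ∪ a) ∩ c) \ β) := hN.sub1 haβ (by
          intro y; simp only [mem_sdiff, mem_inter_iff, mem_union]; tauto)
        have hb2 : Null (β \ ((β ∪ a) ∩ c)) := hN.sub1 hβc (by
          intro y; simp only [mem_sdiff, mem_inter_iff, mem_union]; tauto)
        obtain ⟨Z, hZ1, hZ2, hZ3⟩ := hG.down ((β ∪ a) ∩ c) (((β ∪ a) ∩ c) \ a) hb1 hb2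
          (fun h' => h (hN.trans hb2 h')) sdiff_subset
        refine ⟨_, ?_, ?_, ?_, ?_, hZ3⟩
        · intro y hy
          exact ⟨⟨Or.inr hy, hac hy⟩, fun hz => (hZ1 hz).2 hy⟩
        · exact fun y hy => hy.1.2
        · exact hN.mono (sdiff_subset_sdiff_left sdiff_subset) hb1
        · exact hN.sub2 hb2 hZ2 (by intro y; simp only [mem_sdiff]; tauto)
    -- upper end
    obtain ⟨c', ha'c', hc'c, hc'1, hc'3⟩ :
        ∃ c', a' ⊆ c' ∧ c' ⊆ c ∧ Null (c' \ β) ∧ II βᶜ c'ᶜ := by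
      by_cases h : Null (c \ β)
      · obtain rfl : β₂ = β := hanti _ hβ₂ _ hβ (hN.trans hc1 h)
        exact ⟨c, ha'c, Subset.rfl, h, hc2 h⟩
      · obtain ⟨Z, hZ1, hZ2, hZ3⟩ := hG.up a' (c \ a') ha'1 ha'2
          (fun h' => h (hN.trans h' ha'1)) disjoint_sdiff_left
        refine ⟨_, subset_union_left, union_subset ha'c (hZ1.trans sdiff_subset), ?_, hZ3⟩
        exact hN.sub2 ha'1 hZ2 (by intro y; simp only [mem_sdiff, mem_union]; tauto)
    obtain ⟨b, hb1, hb2, hb3, hb4⟩ := hG.ivt a' c' ha'2 hc'1 ha'c' ha'3 hc'3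
    refine ⟨b, haa'.trans hb1, hb2.trans hc'c, ⟨β, hβ, ?_, fun _ => hb3⟩,
      (hSp b).2 ⟨β, hβ, ?_, fun _ => hb4⟩⟩
    · exact hN.mono (sdiff_subset_sdiff_left hb2) hc'1
    · exact hN.mono (sdiff_subset_sdiff_right hb1) ha'2

end Crest.Agent.R53
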