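import Crest.Agent.R53.Blocks

set_option autoImplicit false

namespace Crest.Agent.R53

open Set Filter Topology
open scoped Classical

namespace Blocks

variable {α : Type} (B : Blocks α) (β : Set α)

/-- gain in block `j` -/
noncomputable def g (b : Set α) (j : ℕ) : ℤ := (B.cnt b j : ℤ) - B.cnt β j

/-- cumulated gain -/
noncomputable def C (b : Set α) (n : ℕ) : ℤ := ∑ j ∈ Finset.range (n + 1), B.g β b j

/-- the look-ahead potential at time `n` is at most `-k` -/
def L (k : ℤ) (b : Set α) (n : ℕ) : Prop :=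
  B.C β b n + k ≤ 0 ∨ ∃ j, n < j ∧ (B.C β b n + k) * B.N j + B.N n * B.g β b j ≤ 0

theorem g_mono' {b b' : Set α} {j : ℕ} (h : ∀ x ∈ b', B.blk x = j → x ∈ b) :
    B.g β b' j ≤ B.g β b j := by
  have := B.cnt_mono' h
  unfold g; omega

theorem C_mono' {b b' : Set α} {n : ℕ} (h : ∀ x ∈ b', B.blk x ≤ n → x ∈ b) :
    B.C β b' n ≤ B.C β b n :=
  Finset.sum_le_sum fun j hj => B.g_mono' β fun x hx hxj => h x hx (by
    rw [Finset.mem_range] at hj; omega)

theorem L_of_le {k k' : ℤ} {b b' : Set α} {n : ℕ} (hC : B.C β b' n + k' ≤ B.C β b n + k)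
    (hg : ∀ j, n < j → B.g β b' j ≤ B.g β b j) (h : B.L β k b n) : B.L β k' b' n := by
  rcases h with h | ⟨j, hj, h⟩
  · exact Or.inl (hC.trans h)
  · refine Or.inr ⟨j, hj, le_trans ?_ h⟩
    have := hg j hj
    gcongr

theorem L_mono {k : ℤ} {b b' : Set α} (hb : b' ⊆ b) {n : ℕ} (h : B.L β k b n) :
    B.L β k b' n :=
  B.L_of_le β (by have := B.C_mono' β (n := n) fun x hx _ => hb hx; omega)
    (fun _ _ => B.g_mono' β fun _ hx _ => hb hx) h

theorem g_insert {b : Set α} {x : α} (hx : x ∉ b) (j : ℕ) :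
    B.g β (insert x b) j = B.g β b j + if B.blk x = j then 1 else 0 := by
  unfold g
  rw [B.cnt_insert hx]
  split_ifs <;> push_cast <;> ring

theorem C_insert {b : Set α} {x : α} (hx : x ∉ b) (n : ℕ) :
    B.C β (insert x b) n = B.C β b n + if B.blk x ≤ n then 1 else 0 := by
  unfold C
  simp only [B.g_insert β hx, Finset.sum_add_distrib, Finset.sum_ite_eq, Finset.mem_range,
    Nat.lt_succ_iff]

theorem L_insert {b : Set α} (x : α) {n : ℕ} (h : B.L β 1 b n) : B.L β 0 (insert x b) n := by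
  by_cases hx : x ∈ b
  · rw [insert_eq_of_mem hx]
    exact B.L_of_le β (by omega) (fun _ _ => le_rfl) h
  by_cases hn : B.blk x ≤ n
  · refine B.L_of_le β ?_ (fun j hj => ?_) h
    · rw [B.C_insert β hx, if_pos hn]; omega
    · rw [B.g_insert β hx, if_neg (by omega)]; omega
  · have hC : B.C β (insert x b) n = B.C β b n := by rw [B.C_insert β hx, if_neg hn, add_zero]
    rcases h with h | ⟨j, hj, h⟩
    · left; omega
    · refine Or.inr ⟨j, hj, le_trans ?_ h⟩
      have h1 : B.g β (insert x b) j ≤ B.g β b j + 1 := by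
        rw [B.g_insert β hx]; split_ifs <;> omega
      have h2 : (B.N n : ℤ) ≤ B.N j := by exact_mod_cast B.N_mono hj.le
      have h3 : (0 : ℤ) ≤ B.N n := by positivity
      rw [hC]
      nlinarith

theorem L_of_insert {b : Set α} {x : α} (hx : x ∉ b) {n : ℕ} (hn : B.blk x ≤ n)
    (h : B.L β 0 (insert x b) n) : B.L β 1 b n := by
  refine B.L_of_le β ?_ (fun j _ => B.g_mono' β fun y hy _ => mem_insert_of_mem _ hy) h
  rw [B.C_insert β hx, if_pos hn]; omega

theorem L_local {a : Set α} (ha : B.NullF atTop (β \ a)) (n : ℕ) :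
    ∃ m, ∀ b b', a ⊆ b → (∀ x ∈ b', B.blk x ≤ m → x ∈ b) → B.L β 0 b n → B.L β 0 b' n := by
  have h1 : ∀ᶠ j in atTop, B.dens (β \ a) j < 1 / B.N n :=
    ha.eventually (gt_mem_nhds (by have := B.N_pos' n; positivity))
  obtain ⟨m₀, hm₀⟩ := eventually_atTop.1 h1
  refine ⟨max n m₀, fun b b' hab hb h => ?_⟩
  have hC : B.C β b' n ≤ B.C β b n :=
    B.C_mono' β fun x hx hxn => hb x hx (hxn.trans (le_max_left _ _))
  by_cases h0 : B.C β b n ≤ 0
  · left; omega
  rcases h with h | ⟨j, hj, h⟩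
  · omega
  have hjm : j < m₀ := by
    by_contra hjm
    have h2 := hm₀ j (not_lt.1 hjm)
    unfold dens at h2
    rw [div_lt_div_iff₀ (B.N_pos' j) (B.N_pos' n)] at h2
    have h3 : (B.cnt (β \ a) j : ℤ) * B.N n < 1 * B.N j := by exact_mod_cast h2
    have h4 : B.cnt β j ≤ B.cnt b j + B.cnt (β \ a) j :=
      (B.cnt_mono (fun x hx => by
        by_cases hxa : x ∈ a
        · exact Or.inl (hab hxa)
        · exact Or.inr ⟨hx, hxa⟩) j).trans (B.cnt_union_le _ _ j)
    have h5 : -(B.cnt (β \ a) j : ℤ) ≤ B.g β b j := by unfold g; omega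
    have h6 : (0 : ℤ) ≤ B.N n := by positivity
    have h7 : (0 : ℤ) ≤ B.N j := by positivity
    have h8 : 1 ≤ B.C β b n := by omega
    nlinarith
  refine Or.inr ⟨j, hj, le_trans ?_ h⟩
  have : B.g β b' j ≤ B.g β b j := B.g_mono' β fun x hx hxj => hb x hx (by
    rw [hxj]; exact hjm.le.trans (le_max_right _ _))
  gcongr

/-- independent in the class -/
def MI (b : Set α) : Prop := ∀ᶠ n in atTop, B.L β 0 b n

/-- spanning in the class -/
def MS (b : Set α) : Prop := ¬ ∀ᶠ n in atTop, B.L β 1 b n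

theorem MI_mono (a b : Set α) (h : a ⊆ b) (hb : B.MI β b) : B.MI β a :=
  hb.mono fun _ => B.L_mono β h

theorem MS_mono (a b : Set α) (h : a ⊆ b) (ha : B.MS β a) : B.MS β b :=
  fun hb => ha (hb.mono fun _ => B.L_mono β h)

theorem m1a (b : Set α) (x : α) (h : ¬ B.MS β b) : B.MI β (insert x b) :=
  (not_not.1 h).mono fun _ => B.L_insert β x

theorem m1b (b : Set α) (x : α) (hx : x ∉ b) (h : B.MI β (insert x b)) : ¬ B.MS β b := by
  refine not_not.2 ?_
  filter_upwards [h, eventually_ge_atTop (B.blk x)] with n h1 h2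
  exact B.L_of_insert β hx h2 h1

theorem ivt_finite (s : Set α) (hs : s.Finite) : ∀ b, B.MI β b → B.MS β (b ∪ s) →
    ∃ b', b ⊆ b' ∧ b' ⊆ b ∪ s ∧ B.MI β b' ∧ B.MS β b' := by
  induction s, hs using Set.Finite.induction_on with
  | empty => exact fun b h1 h2 => ⟨b, Subset.rfl, subset_union_left, h1, by simpa using h2⟩
  | @insert x s _ _ ih =>
    intro b h1 h2
    by_cases h : B.MS β b
    · exact ⟨b, Subset.rfl, subset_union_left, h1, h⟩
    · have e : insert x b ∪ s = b ∪ insert x s := by rw [insert_union, union_insert]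
      obtain ⟨b', h3, h4, h5⟩ := ih (insert x b) (B.m1a β b x h) (e ▸ h2)
      exact ⟨b', (subset_insert _ _).trans h3, e ▸ h4, h5⟩

theorem chain_local {c : Set (Set α)} (hc : IsChain (· ⊆ ·) c) (hne : c.Nonempty)
    (s : Set α) (hs : s.Finite) : ∃ b ∈ c, ∀ x ∈ s, x ∈ ⋃₀ c → x ∈ b := by
  induction s, hs using Set.Finite.induction_on with
  | empty => obtain ⟨b, hb⟩ := hne; exact ⟨b, hb, by simp⟩
  | @insert x s _ _ ih =>
    obtain ⟨b, hb, h⟩ := ih
    by_cases hx : x ∈ ⋃₀ c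
    · obtain ⟨b', hb', hx'⟩ := hx
      rcases hc.total hb hb' with h1 | h1
      · refine ⟨b', hb', ?_⟩
        rintro y (rfl | hy) hy'
        · exact hx'
        · exact h1 (h y hy hy')
      · refine ⟨b, hb, ?_⟩
        rintro y (rfl | hy) hy'
        · exact h1 hx'
        · exact h y hy hy'
    · refine ⟨b, hb, ?_⟩
      rintro y (rfl | hy) hy'
      · exact absurd hy' hx
      · exact h y hy hy'

theorem ivt (a c : Set α) (ha : B.NullF atTop (β \ a)) (hac : a ⊆ c) (h1 : B.MI β a)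
    (h2 : B.MS β c) : ∃ b, a ⊆ b ∧ b ⊆ c ∧ B.MI β b ∧ B.MS β b := by
  obtain ⟨n₀, hn₀⟩ := eventually_atTop.1 h1
  choose m hm using B.L_local β ha
  obtain ⟨b, hab, hb⟩ := zorn_subset_nonempty
    {b | a ⊆ b ∧ b ⊆ c ∧ ∀ n, n₀ ≤ n → B.L β 0 b n} (by
      intro ch hch hchain hne
      refine ⟨⋃₀ ch, ⟨?_, ?_, fun n hn => ?_⟩, fun s hs => subset_sUnion_of_mem hs⟩
      · obtain ⟨b, hb⟩ := hne
        exact (hch hb).1.trans (subset_sUnion_of_mem hb)
      · exact sUnion_subset fun b hb => (hch hb).2.1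
      · obtain ⟨b, hb, h⟩ := chain_local hchain hne _ (B.finite_le (m n))
        exact hm n b _ (hch hb).1 (fun x hx hxm => h x hxm hx) ((hch hb).2.2 n hn))
    a ⟨Subset.rfl, hac, hn₀⟩
  obtain ⟨-, hbc, hbL⟩ := hb.prop
  have hI : B.MI β b := eventually_atTop.2 ⟨n₀, hbL⟩
  by_cases hfin : (c \ b).Finite
  · obtain ⟨b', h3, h4, h5⟩ := B.ivt_finite β _ hfin b hI (by rwa [union_sdiff_cancel hbc])
    exact ⟨b', hab.trans h3, by rwa [union_sdiff_cancel hbc] at h4, h5⟩
  refine ⟨b, hab, hbc, hI, fun h => ?_⟩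
  obtain ⟨n₁, hn₁⟩ := eventually_atTop.1 h
  obtain ⟨x, hx, hx'⟩ : ∃ x ∈ c \ b, ¬ B.blk x ≤ (Finset.range n₁).sup m := by
    by_contra hcon
    push Not at hcon
    exact hfin ((B.finite_le _).subset hcon)
  have := hb.le_of_ge (y := insert x b) ⟨hab.trans (subset_insert _ _), insert_subset hx.1 hbc,
    fun n hn => ?_⟩ (subset_insert _ _)
  · exact hx.2 (this (mem_insert _ _))
  by_cases hn' : n₁ ≤ n
  · exact B.L_insert β x (hn₁ n hn')
  · refine hm n b _ hab ?_ (hbL n hn)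
    rintro y (rfl | hy) hym
    · exact absurd (hym.trans (Finset.le_sup (f := m) (Finset.mem_range.2 (by omega)))) hx'
    · exact hy

end Blocks

end Crest.Agent.R53
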