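import Crest.Agent.R53.Blocks

set_option autoImplicit false

namespace Crest.Agent.R53

open Set Filter Topology
open scoped Classical

/-- A family of asymptotically independent halves of the blocks. -/
structure Walsh (α ι : Type) extends Blocks α where
  Z : ι → Set α
  σ : ι → α → α
  σ_inv : ∀ x a, σ x (σ x a) = a
  σ_blk : ∀ x a, blk (σ x a) = blk a
  σ_self : ∀ x a, σ x a ∈ Z x ↔ a ∉ Z x
  σ_other : ∀ x y, y ≠ x → ∀ᶠ j in atTop, ∀ a, blk a = j → (σ x a ∈ Z y ↔ a ∈ Z y)

namespace Walsh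

variable {α ι : Type} (B : Walsh α ι)

/-- sign function -/
noncomputable def sgn (x : ι) (a : α) : ℝ := if a ∈ B.Z x then 1 else -1

/-- Walsh function -/
noncomputable def w (S : Finset ι) (a : α) : ℝ := ∏ x ∈ S, B.sgn x a

/-- intersection of finitely many halves -/
def ZF (F : Finset ι) : Set α := {a | ∀ y ∈ F, a ∈ B.Z y}

/-- Walsh coefficient in block `j` -/
noncomputable def cf (W : Set α) (S : Finset ι) (j : ℕ) : ℝ :=
  (∑ a ∈ B.J j, (if a ∈ W then 1 else 0) * B.w S a) / B.N j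

theorem w_sq (S : Finset ι) (a : α) : B.w S a * B.w S a = 1 := by
  unfold w
  rw [← Finset.prod_mul_distrib]
  refine Finset.prod_eq_one fun x _ => ?_
  unfold sgn; split_ifs <;> norm_num

theorem orth_aux {S S' : Finset ι} {x : ι} (hx : x ∈ S) (hx' : x ∉ S') :
    ∀ᶠ j in atTop, ∑ a ∈ B.J j, B.w S a * B.w S' a = 0 := by
  have h : ∀ᶠ j in atTop, ∀ y ∈ (S ∪ S').erase x, ∀ a, B.blk a = j →
      (B.σ x a ∈ B.Z y ↔ a ∈ B.Z y) :=
    (eventually_all_finset _).2 fun y hy => B.σ_other x y (Finset.ne_of_mem_erase hy)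
  filter_upwards [h] with j hj
  refine Finset.sum_involution (fun a _ => B.σ x a) ?_ ?_ ?_ ?_
  · intro a ha
    have ha' := (B.mem_J _ _).1 ha
    have h1 : B.w S' (B.σ x a) = B.w S' a := by
      refine Finset.prod_congr rfl fun y hy => ?_
      unfold sgn
      rw [if_congr (hj y (Finset.mem_erase.2 ⟨fun h => hx' (h ▸ hy),
        Finset.mem_union_right _ hy⟩) a ha') rfl rfl]
    have h2 : B.w S (B.σ x a) = - B.w S a := by
      unfold w
      rw [← Finset.mul_prod_erase S _ hx, ← Finset.mul_prod_erase S _ hx, ← neg_mul]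
      congr 1
      · unfold sgn
        rw [if_congr (B.σ_self x a) rfl rfl]
        by_cases h : a ∈ B.Z x <;> simp [h]
      · refine Finset.prod_congr rfl fun y hy => ?_
        unfold sgn
        rw [if_congr (hj y (Finset.mem_erase.2 ⟨Finset.ne_of_mem_erase hy,
          Finset.mem_union_left _ (Finset.mem_of_mem_erase hy)⟩) a ha') rfl rfl]
    rw [h1, h2]; ring
  · intro a _ _ h
    have := B.σ_self x a
    rw [h] at this
    exact iff_not_self this
  · intro a ha
    rw [B.mem_J] at ha ⊢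
    rw [B.σ_blk, ha]
  · intro a _
    exact B.σ_inv x a

theorem orth {S S' : Finset ι} (h : S ≠ S') :
    ∀ᶠ j in atTop, ∑ a ∈ B.J j, B.w S a * B.w S' a = 0 := by
  by_cases h1 : S ⊆ S'
  · obtain ⟨x, hx, hx'⟩ := Finset.exists_of_ssubset (Finset.ssubset_iff_subset_ne.2 ⟨h1, h⟩)
    filter_upwards [B.orth_aux hx hx'] with j hj
    simpa only [mul_comm] using hj
  · obtain ⟨x, hx, hx'⟩ := Finset.not_subset.1 h1
    exact B.orth_aux hx hx'

theorem bessel (W : Set α) (T : Finset (Finset ι)) (j : ℕ)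
    (h : ∀ S ∈ T, ∀ S' ∈ T, S ≠ S' → ∑ a ∈ B.J j, B.w S a * B.w S' a = 0) :
    ∑ S ∈ T, B.cf W S j ^ 2 ≤ 1 := by
  have hN := B.N_pos' j
  set f : α → ℝ := fun a => if a ∈ W then 1 else 0 with hf
  set c : Finset ι → ℝ := fun S => B.cf W S j with hc
  have hc' : ∀ S, ∑ a ∈ B.J j, f a * B.w S a = c S * B.N j := fun S => by
    simp only [hc, cf]; rw [div_mul_cancel₀ _ hN.ne']
  have h1 : ∑ a ∈ B.J j, f a * ∑ S ∈ T, c S * B.w S a = (∑ S ∈ T, c S ^ 2) * B.N j := by
    simp only [Finset.mul_sum]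
    rw [Finset.sum_comm, Finset.sum_mul]
    refine Finset.sum_congr rfl fun S _ => ?_
    rw [pow_two, mul_assoc, ← hc', Finset.mul_sum]
    exact Finset.sum_congr rfl fun a _ => by ring
  have h2 : ∑ a ∈ B.J j, (∑ S ∈ T, c S * B.w S a) ^ 2 = (∑ S ∈ T, c S ^ 2) * B.N j := by
    simp only [pow_two, Finset.sum_mul_sum]
    rw [Finset.sum_comm, Finset.sum_mul]
    refine Finset.sum_congr rfl fun S hS => ?_
    rw [Finset.sum_comm, Finset.sum_eq_single S]
    · have : ∀ a, c S * B.w S a * (c S * B.w S a) = c S * c S := fun a => by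
        have := B.w_sq S a
        calc _ = c S * c S * (B.w S a * B.w S a) := by ring
          _ = _ := by rw [this, mul_one]
      simp only [this, Finset.sum_const, nsmul_eq_mul, Blocks.N]; ring
    · intro S' hS' hne
      have := h S hS S' hS' hne.symm
      calc _ = c S * c S' * ∑ a ∈ B.J j, B.w S a * B.w S' a := by
            rw [Finset.mul_sum]; exact Finset.sum_congr rfl fun a _ => by ring
        _ = 0 := by rw [this, mul_zero]
    · exact fun h => absurd hS h
  have h3 : ∑ a ∈ B.J j, f a ^ 2 ≤ B.N j := by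
    calc _ ≤ ∑ _a ∈ B.J j, (1 : ℝ) := Finset.sum_le_sum fun a _ => by
          simp only [hf]; split_ifs <;> norm_num
      _ = _ := by simp [Blocks.N]
  have h4 : 0 ≤ ∑ a ∈ B.J j, (f a - ∑ S ∈ T, c S * B.w S a) ^ 2 :=
    Finset.sum_nonneg fun _ _ => sq_nonneg _
  simp only [sub_sq, Finset.sum_add_distrib, Finset.sum_sub_distrib, mul_assoc,
    ← Finset.mul_sum] at h4
  rw [h1, h2] at h4
  have h5 : (∑ S ∈ T, c S ^ 2) * B.N j ≤ 1 * B.N j := by linarith
  exact le_of_mul_le_mul_right h5 hN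

theorem countable_bad (U : Ultrafilter ℕ) (hU : (U : Filter ℕ) ≤ atTop) (W : Set α) :
    {S | ¬ Tendsto (B.cf W S) U (𝓝 0)}.Countable := by
  have hfin : ∀ k : ℕ, {S | ∀ᶠ j in (U : Filter ℕ), 1 / ((k : ℝ) + 1) ≤ |B.cf W S j|}.Finite := by
    intro k
    by_contra hinf
    obtain ⟨T, hT, hTc⟩ := Set.Infinite.exists_subset_card_eq hinf ((k + 1) ^ 2 + 1)
    have h1 : ∀ᶠ j in (U : Filter ℕ), ∀ S ∈ T, 1 / ((k : ℝ) + 1) ≤ |B.cf W S j| :=
      (eventually_all_finset _).2 fun S hS => hT hS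
    have h2 : ∀ᶠ j in atTop, ∀ S ∈ T, ∀ S' ∈ T, S ≠ S' →
        ∑ a ∈ B.J j, B.w S a * B.w S' a = 0 :=
      (eventually_all_finset _).2 fun S _ => (eventually_all_finset _).2 fun S' _ => by
        by_cases h : S = S'
        · exact Eventually.of_forall fun _ h' => absurd h h'
        · exact (B.orth h).mono fun _ h' _ => h'
    obtain ⟨j, hj1, hj2⟩ := (h1.and (hU h2)).exists
    have h3 := B.bessel W T j hj2
    have h4 : ∑ _S ∈ T, (1 / ((k : ℝ) + 1)) ^ 2 ≤ ∑ S ∈ T, B.cf W S j ^ 2 :=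
      Finset.sum_le_sum fun S hS => by
        rw [← sq_abs (B.cf W S j)]
        exact pow_le_pow_left₀ (by positivity) (hj1 S hS) 2
    rw [Finset.sum_const, hTc, nsmul_eq_mul] at h4
    have h5 := h4.trans h3
    push_cast at h5
    rw [div_pow, one_pow, mul_one_div, div_le_one (by positivity)] at h5
    linarith
  refine (countable_iUnion fun k => (hfin k).countable).mono fun S hS => ?_
  by_contra hcon
  simp only [mem_iUnion, mem_ofPred_eq, not_exists] at hcon
  refine hS (Metric.tendsto_nhds.2 fun ε hε => ?_)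
  obtain ⟨k, hk⟩ := exists_nat_one_div_lt hε
  filter_upwards [Ultrafilter.eventually_not.2 (hcon k)] with j hj
  rw [Real.dist_eq, sub_zero]
  exact (not_le.1 hj).trans hk

theorem cf_inter (W : Set α) {S : Finset ι} {y : ι} (hy : y ∉ S) (j : ℕ) :
    B.cf (W ∩ B.Z y) S j = (B.cf W S j + B.cf W (insert y S) j) / 2 := by
  unfold cf
  rw [← add_div, div_right_comm, ← Finset.sum_add_distrib]
  congr 1
  rw [Finset.sum_div]
  refine Finset.sum_congr rfl fun a _ => ?_
  unfold w
  rw [Finset.prod_insert hy]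
  by_cases h1 : a ∈ W <;> by_cases h2 : a ∈ B.Z y <;> simp [h1, h2, sgn]

theorem cf_single (W : Set α) (x : ι) (j : ℕ) :
    B.cf W {x} j = B.dens (W ∩ B.Z x) j - B.dens (W \ B.Z x) j := by
  unfold cf Blocks.dens Blocks.cnt
  rw [← sub_div, Finset.natCast_card_filter, Finset.natCast_card_filter, ← Finset.sum_sub_distrib]
  congr 1
  refine Finset.sum_congr rfl fun a _ => ?_
  by_cases h1 : a ∈ W <;> by_cases h2 : a ∈ B.Z x <;> simp [h1, h2, sgn, w]

theorem ZF_insert (F : Finset ι) (y : ι) : B.ZF (insert y F) = B.ZF F ∩ B.Z y := by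
  ext a; simp only [ZF, Finset.mem_insert, forall_eq_or_imp, mem_ofPred_eq, mem_inter_iff]; tauto

theorem tendsto_cf {l : Filter ℕ} {W : Set α} {x : ι}
    (h : ∀ S, x ∈ S → Tendsto (B.cf W S) l (𝓝 0)) (F : Finset ι) :
    ∀ S, x ∈ S → Disjoint S F → Tendsto (B.cf (W ∩ B.ZF F) S) l (𝓝 0) := by
  induction F using Finset.induction_on with
  | empty =>
    intro S hS _
    have : B.ZF ∅ = univ := by ext a; simp [ZF]
    rw [this, inter_univ]
    exact h S hS
  | insert y F hy ih =>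
    intro S hS hd
    rw [Finset.disjoint_insert_right] at hd
    rw [ZF_insert, ← inter_assoc]
    have h1 := ih S hS hd.2
    have h2 := ih (insert y S) (Finset.mem_insert_of_mem hS)
      (Finset.disjoint_insert_left.2 ⟨hy, hd.2⟩)
    have h3 := (h1.add h2).div_const 2
    simp only [add_zero, zero_div] at h3
    exact h3.congr fun j => (B.cf_inter _ hd.1 j).symm

theorem half {l : Filter ℕ} (hl : l ≤ atTop) {W : Set α} {x : ι}
    (h : ∀ S, x ∈ S → Tendsto (B.cf W S) l (𝓝 0)) {F : Finset ι} (hx : x ∉ F) :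
    (B.NullF l (W ∩ B.ZF F ∩ B.Z x) → B.NullF l (W ∩ B.ZF F)) ∧
      (B.NullF l ((W ∩ B.ZF F) \ B.Z x) → B.NullF l (W ∩ B.ZF F)) := by
  have h1 := B.tendsto_cf h F {x} (Finset.mem_singleton_self x)
    (Finset.disjoint_singleton_left.2 hx)
  have h2 := h1.congr (B.cf_single _ x)
  have hI := B.isIdeal hl
  have key : B.NullF l (W ∩ B.ZF F ∩ B.Z x) → B.NullF l ((W ∩ B.ZF F) \ B.Z x) →
      B.NullF l (W ∩ B.ZF F) := fun h3 h4 => hI.sub2 h3 h4 fun a ha => by
    by_cases h : a ∈ B.Z x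
    · exact Or.inl ⟨ha, h⟩
    · exact Or.inr ⟨ha, h⟩
  refine ⟨fun h3 => key h3 ?_, fun h4 => key ?_ h4⟩
  · have := Tendsto.sub h3 h2
    simp only [sub_sub_cancel, sub_zero] at this
    exact this
  · have := Tendsto.add h2 h4
    simp only [sub_add_cancel, add_zero] at this
    exact this

/-- the exceptional parameters -/
def exc (U : Ultrafilter ℕ) (W : Set α) : Set ι :=
  ⋃ S ∈ {S | ¬ Tendsto (B.cf W S) U (𝓝 0)}, (S : Set ι)

theorem countable_exc (U : Ultrafilter ℕ) (hU : (U : Filter ℕ) ≤ atTop) (W : Set α) :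
    (B.exc U W).Countable :=
  (B.countable_bad U hU W).biUnion fun S _ => S.countable_toSet

theorem half' {U : Ultrafilter ℕ} (hU : (U : Filter ℕ) ≤ atTop) {W : Set α} {x : ι}
    (h : x ∉ B.exc U W) {F : Finset ι} (hx : x ∉ F) :
    (B.NullF U (W ∩ B.ZF F ∩ B.Z x) → B.NullF U (W ∩ B.ZF F)) ∧
      (B.NullF U ((W ∩ B.ZF F) \ B.Z x) → B.NullF U (W ∩ B.ZF F)) := by
  refine B.half hU (fun S hS => ?_) hx
  by_contra hcon
  exact h (mem_biUnion (show S ∈ {S | ¬ Tendsto (B.cf W S) U (𝓝 0)} from hcon) hS)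

theorem not_null_ZF {l : Filter ℕ} [l.NeBot] (hl : l ≤ atTop) (F : Finset ι) :
    ¬ B.NullF l (B.ZF F) := by
  induction F using Finset.induction_on with
  | empty =>
    have : B.ZF ∅ = univ := by ext a; simp [ZF]
    rw [this]
    exact B.not_null_univ
  | insert y F hy ih =>
    intro h
    have h1 := (B.half hl (W := univ) (x := y) (fun S hS => ?_) hy).1
    · rw [univ_inter, ← ZF_insert] at h1
      exact ih (h1 h)
    · refine tendsto_const_nhds.congr' (hl ?_)
      filter_upwards [B.orth_aux hS (Finset.notMem_empty y)] with j hj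
      simp only [w, Finset.prod_empty, mul_one] at hj
      simp [cf, w, hj]

end Walsh

end Crest.Agent.R53
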